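import Mathlib

/-!
P339: 2-to-1 games with perfect completeness. Definitions for the statement: binary codes,
3-SAT, weighted 2-to-1 games and their value, NP-hardness of the gap problem, the number `s*`.
-/

namespace Vale.Agent.P339.H283

/-! ### Binary codes -/

/-- The pair of the words `u` and `v`: every bit of `u` is preceded by `true`, then comes `false`,
then `v`. -/
def pairW (u v : List Bool) : List Bool := (u.flatMap fun b => [true, b]) ++ false :: v

/-- The code of a list, given the codes of its elements: nested pairs. -/
def listW {α : Type} (c : α → List Bool) : List α → List Bool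
  | [] => []
  | a :: l => pairW (c a) (listW c l)

/-! ### 3-SAT -/

/-- A literal `(x, s)`: it is true if the variable `x` has the value `s`. -/
abbrev Literal := ℕ × Bool

/-- A formula in conjunctive normal form with three literals per clause: a list of clauses. -/
abbrev Formula := List (Literal × Literal × Literal)

/-- Some assignment makes a literal of every clause true. -/
def Formula.Satisfiable (φ : Formula) : Prop :=
  ∃ τ : ℕ → Bool, ∀ c ∈ φ,
    τ c.1.1 = c.1.2 ∨ τ c.2.1.1 = c.2.1.2 ∨ τ c.2.2.1 = c.2.2.2

/-- The code of a literal. -/
def litW (l : Literal) : List Bool := pairW (Nat.bits l.1) [l.2]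

/-- The code of a formula. -/
def formulaW (φ : Formula) : List Bool :=
  listW (fun c : Literal × Literal × Literal =>
    pairW (litW c.1) (pairW (litW c.2.1) (litW c.2.2))) φ

/-! ### 2-to-1 games -/

/-- A constraint on the left vertex `u` and the right vertex `v` (vertices are named by natural
numbers), with the projection `π` and the weight `w`. -/
structure Constraint (q : ℕ) where
  /-- the left vertex -/
  u : ℕ
  /-- the right vertex -/
  v : ℕ
  /-- the projection -/
  π : Fin (2 * q) → Fin q
  /-- the weight -/
  w : ℕ

/-- The total weight of a list of constraints. -/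
def weight {q : ℕ} (l : List (Constraint q)) : ℕ := (l.map fun e => e.w).sum

/-- A 2-to-1 game with left alphabet `Fin (2 * q)` and right alphabet `Fin q`: a list of
constraints with exactly 2-to-1 projections, not all of weight zero; the probability of a
constraint is its weight divided by the total weight. -/
structure Game (q : ℕ) where
  /-- the constraints -/
  cons : List (Constraint q)
  two_to_one : ∀ e ∈ cons, ∀ b : Fin q, (Finset.univ.filter fun a => e.π a = b).card = 2
  weight_pos : 0 < weight cons

/-- The probability that a random constraint is satisfied by the labeling `A`, `B`. -/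
noncomputable def Game.prob {q : ℕ} (G : Game q) (A : ℕ → Fin (2 * q)) (B : ℕ → Fin q) : ℝ :=
  (weight (G.cons.filter fun e => e.π (A e.u) = B e.v) : ℝ) / (weight G.cons : ℝ)

/-- The value of a game: the maximum over all labelings of the probability that a random
constraint is satisfied. -/
noncomputable def Game.value {q : ℕ} (G : Game q) : ℝ :=
  sSup {p : ℝ | ∃ (A : ℕ → Fin (2 * q)) (B : ℕ → Fin q), G.prob A B = p}

/-- The code of a constraint: the two vertices and the weight in binary, and the table of the
projection. -/
def constraintW {q : ℕ} (e : Constraint q) : List Bool :=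
  pairW (Nat.bits e.u) (pairW (Nat.bits e.v)
    (pairW (listW Nat.bits (List.ofFn fun a => (e.π a : ℕ))) (Nat.bits e.w)))

/-- The code of a game. -/
def gameW {q : ℕ} (G : Game q) : List Bool := listW constraintW G.cons

/-! ### NP-hardness of the gap problem -/

/-- `f` is computed in polynomial time by a deterministic multi-stack Turing machine with finite
stack alphabets, for the given codes. -/
def PolyTime {α β : Type} (ca : α → List Bool) (cb : β → List Bool) (f : α → β) : Prop :=
  ∃ M : Turing.TM2ComputableInPolyTime ca cb f, ∀ k, Finite (M.tm.Γ k)

/-- `Gap_q(c, s)` is NP-hard: there is a deterministic polynomial time reduction from 3-SAT which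
sends satisfiable formulas to games of value at least `c` and unsatisfiable formulas to games of
value at most `s`. -/
def GapHard (q : ℕ) (c s : ℝ) : Prop :=
  ∃ f : Formula → Game q, PolyTime formulaW gameW f ∧
    ∀ φ : Formula, (φ.Satisfiable → c ≤ (f φ).value) ∧ (¬ φ.Satisfiable → (f φ).value ≤ s)

/-- The number `s*` of the problem. -/
noncomputable def sStar : ℝ :=
  sInf {s : ℝ | 0 < s ∧ s < 1 ∧ ∃ q : ℕ, 2 ≤ q ∧ GapHard q 1 s}

end Vale.Agent.P339.H283
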