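import Vale.Agent.Lib.PCP.HA.Sound3
import Vale.Agent.P333.NP.Par

/-!
P339: Fourier analysis of the test `H(z)_{F(x)} = G(y)` with perfect completeness, for one
constraint `π : S → T`.
-/

namespace Vale.Agent.P339.H283

open Finset Vale.Agent.Lib.PCP Vale.Agent.Lib.PCP.HA

section avg

variable {X Y : Type*} [Fintype X] [Fintype Y]

lemma avg_mono {F G : X → ℝ} (h : ∀ x, F x ≤ G x) : avg F ≤ avg G := by
  unfold avg
  exact div_le_div_of_nonneg_right (Finset.sum_le_sum fun x _ => h x) (Nat.cast_nonneg _)

lemma avg_nonneg {F : X → ℝ} (h : ∀ x, 0 ≤ F x) : 0 ≤ avg F := by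
  unfold avg
  exact div_nonneg (Finset.sum_nonneg fun x _ => h x) (Nat.cast_nonneg _)

lemma avg_const [Nonempty X] (c : ℝ) : avg (fun _ : X => c) = c := by
  unfold avg
  rw [Finset.sum_const, Finset.card_univ, nsmul_eq_mul]
  have : (Fintype.card X : ℝ) ≠ 0 := by exact_mod_cast Fintype.card_ne_zero
  field_simp

lemma avg_const_le {c : ℝ} (hc : 0 ≤ c) : avg (fun _ : X => c) ≤ c := by
  cases isEmpty_or_nonempty X
  · unfold avg; simp [hc]
  · rw [avg_const]

lemma avg_add (F G : X → ℝ) : avg (fun x => F x + G x) = avg F + avg G := by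
  unfold avg; rw [Finset.sum_add_distrib, add_div]

lemma avg_sub (F G : X → ℝ) : avg (fun x => F x - G x) = avg F - avg G := by
  unfold avg; rw [Finset.sum_sub_distrib, sub_div]

lemma avg_comm (F : X → Y → ℝ) :
    (avg fun x => avg fun y => F x y) = avg fun y => avg fun x => F x y := by
  unfold avg
  simp only [← Finset.sum_div]
  rw [Finset.sum_comm, div_div, div_div, mul_comm]

lemma avg_equiv (e : X ≃ Y) (F : Y → ℝ) : (avg fun x => F (e x)) = avg F := by
  unfold avg
  rw [Equiv.sum_comp e F, Fintype.card_congr e]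

lemma avg_sq_le (F : X → ℝ) : avg F ^ 2 ≤ avg fun x => F x ^ 2 := by
  cases isEmpty_or_nonempty X
  · unfold avg; simp
  · have h := Finset.sum_mul_sq_le_sq_mul_sq (Finset.univ : Finset X) (fun _ => (1 : ℝ)) F
    simp only [one_mul, one_pow, Finset.sum_const, Finset.card_univ, nsmul_eq_mul, mul_one] at h
    have hn : (0 : ℝ) < Fintype.card X := by exact_mod_cast Fintype.card_pos
    unfold avg
    rw [div_pow, div_le_div_iff₀ (by positivity) hn]
    calc (∑ x, F x) ^ 2 * (Fintype.card X : ℝ)
        ≤ ((Fintype.card X : ℝ) * ∑ x, F x ^ 2) * (Fintype.card X : ℝ) :=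
          mul_le_mul_of_nonneg_right h hn.le
      _ = _ := by ring

end avg

variable {S T : Type*} [Fintype S] [DecidableEq S] [Fintype T] [DecidableEq T]

lemma xor_xor_cancel (a b : Bool) : xor (xor a b) b = a := by cases a <;> cases b <;> rfl

/-- Translation of the cube. -/
def shiftE (m : S → Bool) : (S → Bool) ≃ (S → Bool) where
  toFun w := fun s => xor (w s) (m s)
  invFun w := fun s => xor (w s) (m s)
  left_inv w := by funext s; exact xor_xor_cancel _ _
  right_inv w := by funext s; exact xor_xor_cancel _ _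

lemma avg_shift (m : S → Bool) (F : (S → Bool) → ℝ) :
    (avg fun w : S → Bool => F (fun s => xor (w s) (m s))) = avg F := avg_equiv (shiftE m) F

/-! ### The test -/

section test

variable {M : ℕ}

/-- The third query. -/
def zq (π : S → T) (x : T → Bool) (y : S → Bool) (n : S → Fin M) : S → Bool × Bool := fun i =>
  (xor (y i) (x (π i) && decide ((n i : ℕ) ≠ 0)), xor (y i) (!x (π i) && decide ((n i : ℕ) ≠ 0)))

/-- The third query in terms of its first component. -/
def zw (w : S → Bool) (n : S → Fin M) : S → Bool × Bool := fun i =>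
  (w i, xor (w i) (decide ((n i : ℕ) ≠ 0)))

/-- The mask. -/
def msk (π : S → T) (x : T → Bool) (n : S → Fin M) : S → Bool := fun i =>
  x (π i) && decide ((n i : ℕ) ≠ 0)

omit [Fintype S] [DecidableEq S] [Fintype T] [DecidableEq T] in
lemma zq_shift (π : S → T) (x : T → Bool) (w : S → Bool) (n : S → Fin M) :
    zq π x (fun s => xor (w s) (msk π x n s)) n = zw w n := by
  funext i
  unfold zq zw msk
  dsimp only
  cases w i <;> cases x (π i) <;> cases decide ((n i : ℕ) ≠ 0) <;> rfl

/-- The positions of `A` without noise. -/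
def lv (n : S → Fin M) (A : Finset S) : Finset S := A.filter fun i => (n i : ℕ) ≠ 0

omit [Fintype S] [DecidableEq S] [Fintype T] in
lemma chi_msk [Fintype S] (π : S → T) (x : T → Bool) (n : S → Fin M) (A : Finset S) [Fintype T] :
    chi A (msk π x n) = chi (odd2 π (lv n A)) x := by
  rw [← chi_comp]
  unfold chi lv
  rw [Finset.prod_filter]
  refine Finset.prod_congr rfl fun s _ => ?_
  unfold msk
  by_cases h : (n s : ℕ) ≠ 0
  · simp [h]
  · simp [h, sgb]

/-- The expectation of the product of three tables. -/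
noncomputable def D (M : ℕ) (π : S → T) (f : (T → Bool) → ℝ) (g : (S → Bool) → ℝ)
    (h : (S → Bool × Bool) → ℝ) : ℝ :=
  avg fun p : (S → Fin M) × ((T → Bool) × (S → Bool)) =>
    f p.2.1 * g p.2.2 * h (zq π p.2.1 p.2.2 p.1)

/-- The average over `x`. -/
noncomputable def Phi (π : S → T) (f : (T → Bool) → ℝ) (g : (S → Bool) → ℝ) (n : S → Fin M)
    (w : S → Bool) : ℝ :=
  avg fun x : T → Bool => f x * g (fun s => xor (w s) (msk π x n s))

lemma D_eq (π : S → T) (f : (T → Bool) → ℝ) (g : (S → Bool) → ℝ) (h : (S → Bool × Bool) → ℝ) :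
    D M π f g h = avg fun n : S → Fin M => avg fun w : S → Bool => Phi π f g n w * h (zw w n) := by
  unfold D
  rw [avg_prod_comm]
  refine avg_congr fun n => ?_
  rw [avg_prod_comm]
  have h1 : ∀ x : T → Bool, (avg fun y : S → Bool => f x * g y * h (zq π x y n)) =
      avg fun w : S → Bool => (f x * g (fun s => xor (w s) (msk π x n s))) * h (zw w n) := by
    intro x
    rw [← avg_shift (msk π x n)]
    refine avg_congr fun w => ?_
    rw [zq_shift]
  rw [avg_congr h1, avg_comm]
  refine avg_congr fun w => ?_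
  rw [avg_mul_const]
  rfl

lemma hat_Phi (π : S → T) (f : (T → Bool) → ℝ) (g : (S → Bool) → ℝ) (n : S → Fin M)
    (A : Finset S) : hat (Phi π f g n) A = hat g A * hat f (odd2 π (lv n A)) := by
  unfold hat Phi
  have h1 : ∀ w : S → Bool, (avg fun x : T → Bool =>
      f x * g (fun s => xor (w s) (msk π x n s))) * chi A w =
      avg fun x : T → Bool => f x * g (fun s => xor (w s) (msk π x n s)) * chi A w := by
    intro w
    rw [avg_mul_const]
  rw [avg_congr h1, avg_comm]
  have h2 : ∀ x : T → Bool, (avg fun w : S → Bool =>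
      f x * g (fun s => xor (w s) (msk π x n s)) * chi A w) =
      (avg fun w : S → Bool => g w * chi A w) * (f x * chi (odd2 π (lv n A)) x) := by
    intro x
    have h3 : ∀ w : S → Bool, f x * g (fun s => xor (w s) (msk π x n s)) * chi A w =
        (fun y : S → Bool => f x * chi A (msk π x n) * (g y * chi A y))
          (fun s => xor (w s) (msk π x n s)) := by
      intro w
      dsimp only
      have h4 : chi A w = chi A (msk π x n) * chi A (fun s => xor (w s) (msk π x n s)) := by
        rw [chi_xor, mul_comm (chi A w), ← mul_assoc]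
        have h5 : chi A (msk π x n) * chi A (msk π x n) = 1 := by
          rw [← chi_xor]
          have : (fun s => xor (msk π x n s) (msk π x n s)) = fun _ => false := by
            funext s; simp
          rw [this, chi_false]
        rw [h5, one_mul]
      rw [h4]
      ring
    rw [avg_congr h3, avg_shift (msk π x n)
      (fun y : S → Bool => f x * chi A (msk π x n) * (g y * chi A y)), avg_const_mul, chi_msk]
    ring
  rw [avg_congr h2, avg_const_mul]

/-- The basic estimate. -/
theorem D_sq_le (π : S → T) (f : (T → Bool) → ℝ) (g : (S → Bool) → ℝ)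
    {h : (S → Bool × Bool) → ℝ} (hh : ∀ z, |h z| ≤ 1) :
    D M π f g h ^ 2 ≤ ∑ A : Finset S, hat g A ^ 2 *
      avg fun n : S → Fin M => hat f (odd2 π (lv n A)) ^ 2 := by
  rw [D_eq]
  refine (avg_sq_le _).trans ?_
  have h1 : ∀ n : S → Fin M, (avg fun w : S → Bool => Phi π f g n w * h (zw w n)) ^ 2 ≤
      ∑ A : Finset S, hat g A ^ 2 * hat f (odd2 π (lv n A)) ^ 2 := by
    intro n
    refine (avg_sq_le _).trans ?_
    have h2 : (avg fun w : S → Bool => Phi π f g n w ^ 2) =
        ∑ A : Finset S, hat g A ^ 2 * hat f (odd2 π (lv n A)) ^ 2 := by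
      rw [← parseval]
      refine Finset.sum_congr rfl fun A _ => ?_
      rw [hat_Phi, mul_pow]
    rw [← h2]
    refine avg_mono fun w => ?_
    rw [mul_pow]
    have h3 := hh (zw w n)
    rw [abs_le] at h3
    have h4 : h (zw w n) ^ 2 ≤ 1 := by nlinarith
    exact mul_le_of_le_one_right (sq_nonneg _) h4
  refine (avg_mono h1).trans (le_of_eq ?_)
  rw [avg_sum]
  refine Finset.sum_congr rfl fun A _ => ?_
  rw [avg_const_mul]

end test

/-! ### Estimates of the averages over the noise -/

section noise

variable {M : ℕ}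

lemma odd2_subset_image (π : S → T) (B : Finset S) {t : T} (ht : t ∈ odd2 π B) :
    ∃ s ∈ B, π s = t := by
  have h1 := (Finset.mem_filter.mp ht).2
  have h2 : (B.filter fun s => π s = t).Nonempty := by
    rw [← Finset.card_pos]
    exact h1.pos
  obtain ⟨s, hs⟩ := h2
  rw [Finset.mem_filter] at hs
  exact ⟨s, hs.1, hs.2⟩

/-- Decoding. -/
lemma hat_sq_le_dec (π : S → T) {f : (T → Bool) → ℝ} (h0 : hat f ∅ = 0) {A B : Finset S}
    (hB : B ⊆ A) : hat f (odd2 π B) ^ 2 ≤ ∑ a ∈ A, dec f (π a) := by
  rcases Finset.eq_empty_or_nonempty (odd2 π B) with he | he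
  · rw [he, h0]
    simpa using Finset.sum_nonneg fun a _ => dec_nonneg f (π a)
  · set α := odd2 π B with hα
    have hpos : (0 : ℝ) < α.card := by exact_mod_cast he.card_pos
    have h3 : ∀ a ∈ B.filter (fun a => π a ∈ α), hat f α ^ 2 / (α.card : ℝ) ≤ dec f (π a) := by
      intro a ha
      rw [Finset.mem_filter] at ha
      unfold dec
      refine le_trans (le_of_eq ?_) (Finset.single_le_sum (f := fun β : Finset T =>
        if π a ∈ β then hat f β ^ 2 / (β.card : ℝ) else 0) (fun β _ => ?_) (Finset.mem_univ α))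
      · simp only [if_pos ha.2]
      · split_ifs <;> positivity
    calc hat f α ^ 2 = (α.card : ℝ) * (hat f α ^ 2 / α.card) := by
          rw [mul_div_cancel₀ _ hpos.ne']
      _ ≤ ((B.filter fun a => π a ∈ α).card : ℝ) * (hat f α ^ 2 / α.card) := by
          refine mul_le_mul_of_nonneg_right ?_ (by positivity)
          exact_mod_cast card_odd2_le π B
      _ = ∑ _a ∈ B.filter (fun a => π a ∈ α), hat f α ^ 2 / (α.card : ℝ) := by
          rw [Finset.sum_const, nsmul_eq_mul]
      _ ≤ ∑ a ∈ B.filter (fun a => π a ∈ α), dec f (π a) := Finset.sum_le_sum h3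
      _ ≤ ∑ a ∈ A, dec f (π a) :=
          Finset.sum_le_sum_of_subset_of_nonneg ((Finset.filter_subset _ _).trans hB)
            fun a _ _ => dec_nonneg f (π a)

/-- Two noise vectors which agree outside of `B` and give the same set of odd fibres have the same
zeros. -/
lemma zero_iff (π : S → T) {A B : Finset S} (hBA : B ⊆ A) (hB : Set.InjOn π B)
    {n n' : S → Fin M} (hn : ∀ i, i ∉ B → n i = n' i)
    (ho : odd2 π (lv n A) = odd2 π (lv n' A)) {a : S} (ha : a ∈ B) :
    ((n a : ℕ) = 0 ↔ (n' a : ℕ) = 0) := by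
  -- the rest of the fibre
  set R : Finset S := (A.filter fun s => π s = π a).erase a with hR
  have key : ∀ m : S → Fin M, ((lv m A).filter fun s => π s = π a).card =
      (R.filter fun s => (m s : ℕ) ≠ 0).card + (if (m a : ℕ) ≠ 0 then 1 else 0) := by
    intro m
    have h1 : ((lv m A).filter fun s => π s = π a) =
        (A.filter fun s => π s = π a).filter fun s => (m s : ℕ) ≠ 0 := by
      unfold lv
      rw [Finset.filter_filter, Finset.filter_filter]
      refine Finset.filter_congr fun s _ => ?_
      tauto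
    have h2 : (A.filter fun s => π s = π a) = insert a R := by
      rw [hR, Finset.insert_erase]
      rw [Finset.mem_filter]
      exact ⟨hBA ha, rfl⟩
    rw [h1, h2, Finset.filter_insert]
    split_ifs with h3
    · rw [Finset.card_insert_of_notMem]
      rw [Finset.mem_filter, hR]
      simp
    · simp
  have hRn : (R.filter fun s => (n s : ℕ) ≠ 0) = R.filter fun s => (n' s : ℕ) ≠ 0 := by
    refine Finset.filter_congr fun s hs => ?_
    have h1 : s ∉ B := by
      intro hsB
      rw [hR, Finset.mem_erase, Finset.mem_filter] at hs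
      exact hs.1 (hB hsB ha hs.2.2)
    rw [hn s h1]
  have h1 : (π a ∈ odd2 π (lv n A) ↔ π a ∈ odd2 π (lv n' A)) := by rw [ho]
  unfold odd2 at h1
  simp only [Finset.mem_filter, Finset.mem_univ, true_and] at h1
  rw [key n, key n', hRn] at h1
  by_cases h2 : (n a : ℕ) = 0
  · by_cases h3 : (n' a : ℕ) = 0
    · simp [h2, h3]
    · exfalso
      simp only [h2, h3, ne_eq, not_true_eq_false, if_false, not_false_eq_true, if_true,
        add_zero] at h1
      rw [Nat.odd_add_one] at h1
      tauto
  · by_cases h3 : (n' a : ℕ) = 0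
    · exfalso
      simp only [h2, h3, ne_eq, not_true_eq_false, if_false, not_false_eq_true, if_true,
        add_zero] at h1
      rw [Nat.odd_add_one] at h1
      tauto
    · simp [h2, h3]

/-- Restriction to the complement of `B`. -/
def res (B : Finset S) (n : S → Fin M) (i : {i : S // i ∉ B}) : Fin M := n i.1

/-- Counting noise vectors. -/
lemma card_noise_le (hM : 2 ≤ M) (E : Finset (S → Fin M)) (B : Finset S)
    (hE : ∀ n ∈ E, ∀ n' ∈ E, (∀ i, i ∉ B → n i = n' i) →
      ∀ a ∈ B, ((n a : ℕ) = 0 ↔ (n' a : ℕ) = 0)) :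
    E.card ≤ (M - 1) ^ B.card * M ^ (Fintype.card S - B.card) := by
  classical
  have hfib : ∀ b ∈ E.image (res B), (E.filter fun n => res B n = b).card ≤
      (M - 1) ^ B.card := by
    intro b hb
    rw [Finset.mem_image] at hb
    obtain ⟨n0, hn0, rfl⟩ := hb
    set P : (i : S) → Finset (Fin M) := fun i =>
      if i ∈ B then Finset.univ.filter fun v => ((v : ℕ) = 0 ↔ (n0 i : ℕ) = 0) else {n0 i} with hP
    have hsub : (E.filter fun n => res B n = res B n0) ⊆ Fintype.piFinset P := by
      intro n hn
      rw [Finset.mem_filter] at hn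
      rw [Fintype.mem_piFinset]
      intro i
      rw [hP]
      dsimp only
      have hag : ∀ i, i ∉ B → n i = n0 i := fun i hi => congrFun hn.2 ⟨i, hi⟩
      split_ifs with hi
      · rw [Finset.mem_filter]
        exact ⟨Finset.mem_univ _, hE n hn.1 n0 hn0 hag i hi⟩
      · rw [Finset.mem_singleton]
        exact hag i hi
    refine (Finset.card_le_card hsub).trans ?_
    rw [Fintype.card_piFinset]
    have h1 : ∀ i, (P i).card ≤ if i ∈ B then M - 1 else 1 := by
      intro i
      rw [hP]
      dsimp only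
      split_ifs with hi
      · by_cases h0 : (n0 i : ℕ) = 0
        · have h2 : (Finset.univ.filter fun v : Fin M => ((v : ℕ) = 0 ↔ (n0 i : ℕ) = 0)) ⊆
              {⟨0, by omega⟩} := by
            intro v hv
            rw [Finset.mem_filter] at hv
            rw [Finset.mem_singleton]
            apply Fin.ext
            exact hv.2.2 h0
          refine (Finset.card_le_card h2).trans ?_
          rw [Finset.card_singleton]
          omega
        · have h2 : (Finset.univ.filter fun v : Fin M => ((v : ℕ) = 0 ↔ (n0 i : ℕ) = 0)) ⊆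
              Finset.univ.erase ⟨0, by omega⟩ := by
            intro v hv
            rw [Finset.mem_filter] at hv
            rw [Finset.mem_erase]
            refine ⟨?_, Finset.mem_univ _⟩
            intro h
            apply h0
            apply hv.2.1
            rw [h]
          refine (Finset.card_le_card h2).trans ?_
          rw [Finset.card_erase_of_mem (Finset.mem_univ _), Finset.card_univ, Fintype.card_fin]
      · simp
    refine (Finset.prod_le_prod' fun i _ => h1 i).trans (le_of_eq ?_)
    rw [Finset.prod_ite_mem, Finset.univ_inter, Finset.prod_const]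
  have h1 := Finset.card_le_mul_card_image E _ hfib
  refine h1.trans (Nat.mul_le_mul_left _ ?_)
  refine (Finset.card_le_univ _).trans (le_of_eq ?_)
  rw [Fintype.card_fun, Fintype.card_fin]
  congr 1
  rw [Fintype.card_subtype_compl]
  simp

/-- The probability of a given set of odd fibres. -/
lemma avg_odd2_le (hM : 2 ≤ M) (π : S → T) {A B : Finset S} (hBA : B ⊆ A) (hB : Set.InjOn π B)
    (α : Finset T) :
    (avg fun n : S → Fin M => if odd2 π (lv n A) = α then (1 : ℝ) else 0) ≤
      (1 - 1 / (M : ℝ)) ^ B.card := by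
  have hM' : (0 : ℝ) < M := by
    have : 0 < M := by omega
    exact_mod_cast this
  have hc := card_noise_le hM (Finset.univ.filter fun n : S → Fin M => odd2 π (lv n A) = α) B
    (fun n hn n' hn' hag a ha => by
      rw [Finset.mem_filter] at hn hn'
      exact zero_iff π hBA hB hag (hn.2.trans hn'.2.symm) ha)
  unfold avg
  rw [Finset.sum_boole, Fintype.card_fun, Fintype.card_fin]
  have hBS : B.card ≤ Fintype.card S := Finset.card_le_univ _
  have hc' : ((Finset.univ.filter fun n : S → Fin M => odd2 π (lv n A) = α).card : ℝ) ≤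
      ((M : ℝ) - 1) ^ B.card * (M : ℝ) ^ (Fintype.card S - B.card) := by
    have h1 : (((M - 1 : ℕ) : ℝ)) = (M : ℝ) - 1 := by
      rw [Nat.cast_sub (by omega)]
      simp
    rw [← h1]
    exact_mod_cast hc
  push_cast
  rw [div_le_iff₀ (by positivity)]
  refine hc'.trans (le_of_eq ?_)
  have h2 : (M : ℝ) ^ Fintype.card S = (M : ℝ) ^ B.card * (M : ℝ) ^ (Fintype.card S - B.card) := by
    rw [← pow_add]
    congr 1
    omega
  rw [h2, ← mul_assoc, ← mul_pow]
  congr 2
  field_simp

/-- Large sets. -/
lemma avg_hat_large (hM : 2 ≤ M) (π : S → T) {f : (T → Bool) → ℝ} (hf : ∀ x, |f x| ≤ 1)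
    {A B : Finset S} (hBA : B ⊆ A) (hB : Set.InjOn π B) :
    (avg fun n : S → Fin M => hat f (odd2 π (lv n A)) ^ 2) ≤ (1 - 1 / (M : ℝ)) ^ B.card := by
  have h1 : ∀ n : S → Fin M, hat f (odd2 π (lv n A)) ^ 2 =
      ∑ α : Finset T, hat f α ^ 2 * (if odd2 π (lv n A) = α then (1 : ℝ) else 0) := by
    intro n
    simp
  rw [avg_congr h1, avg_sum]
  have hM1 : (1 : ℝ) ≤ M := by
    have : 1 ≤ M := by omega
    exact_mod_cast this
  have h0 : (0 : ℝ) ≤ (1 - 1 / (M : ℝ)) ^ B.card := by
    apply pow_nonneg
    rw [sub_nonneg, div_le_one (by linarith)]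
    exact hM1
  calc ∑ α : Finset T, (avg fun n : S → Fin M => hat f α ^ 2 *
        (if odd2 π (lv n A) = α then (1 : ℝ) else 0))
      ≤ ∑ α : Finset T, hat f α ^ 2 * (1 - 1 / (M : ℝ)) ^ B.card := by
        refine Finset.sum_le_sum fun α _ => ?_
        rw [avg_const_mul]
        exact mul_le_mul_of_nonneg_left (avg_odd2_le hM π hBA hB α) (sq_nonneg _)
    _ = (∑ α : Finset T, hat f α ^ 2) * (1 - 1 / (M : ℝ)) ^ B.card := by
        rw [Finset.sum_mul]
    _ ≤ 1 * (1 - 1 / (M : ℝ)) ^ B.card := mul_le_mul_of_nonneg_right (sum_hat_sq_le hf) h0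
    _ = _ := one_mul _

/-- The trivial estimate. -/
lemma avg_hat_le_one (π : S → T) {f : (T → Bool) → ℝ} (hf : ∀ x, |f x| ≤ 1) (A : Finset S) :
    (avg fun n : S → Fin M => hat f (odd2 π (lv n A)) ^ 2) ≤ 1 := by
  refine le_trans (avg_mono (G := fun _ => (1 : ℝ)) fun n => ?_) (avg_const_le zero_le_one)
  exact (Finset.single_le_sum (f := fun α : Finset T => hat f α ^ 2) (fun α _ => sq_nonneg _)
    (Finset.mem_univ _)).trans (sum_hat_sq_le hf)

/-- Small sets, odd tables. -/
lemma avg_hat_small (π : S → T) {f : (T → Bool) → ℝ} (h0 : hat f ∅ = 0) (A : Finset S) :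
    (avg fun n : S → Fin M => hat f (odd2 π (lv n A)) ^ 2) ≤ ∑ a ∈ A, dec f (π a) := by
  refine le_trans (avg_mono (G := fun _ => ∑ a ∈ A, dec f (π a)) fun n => ?_)
    (avg_const_le (Finset.sum_nonneg fun a _ => dec_nonneg _ _))
  exact hat_sq_le_dec π h0 (Finset.filter_subset _ _)

lemma hat_one (α : Finset T) : hat (fun _ : T → Bool => (1 : ℝ)) α = if α = ∅ then 1 else 0 := by
  have h1 := inversion (S := T) (fun _ => (1 : ℝ)) (fun _ => false)
  have h2 := parseval (S := T) (fun _ => (1 : ℝ))
  simp only [one_pow] at h2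
  rw [avg_const] at h2
  have h3 : hat (fun _ : T → Bool => (1 : ℝ)) ∅ = 1 := by
    unfold hat
    simp only [chi_empty, mul_one]
    exact avg_const _
  split_ifs with h
  · rw [h, h3]
  · rw [← Finset.add_sum_erase _ _ (Finset.mem_univ (∅ : Finset T)), h3] at h2
    have h4 : ∑ β ∈ Finset.univ.erase ∅, hat (fun _ : T → Bool => (1 : ℝ)) β ^ 2 = 0 := by
      linarith
    rw [Finset.sum_eq_zero_iff_of_nonneg fun β _ => sq_nonneg _] at h4
    have h5 := h4 α (Finset.mem_erase.2 ⟨h, Finset.mem_univ _⟩)
    exact pow_eq_zero_iff (two_ne_zero) |>.1 h5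

lemma avg_zero (hM : 2 ≤ M) (a : S) :
    (avg fun n : S → Fin M => if (n a : ℕ) = 0 then (1 : ℝ) else 0) = 1 / M := by
  have : NeZero M := ⟨by omega⟩
  have hM' : (M : ℝ) ≠ 0 := Nat.cast_ne_zero.mpr (NeZero.ne M)
  have h1 := avg_noise (m := M) ({a} : Finset S)
  rw [Finset.card_singleton, pow_one] at h1
  have h2 : ∀ ω : S → Fin M, chi {a} (noise ω) =
      1 - 2 * (if (ω a : ℕ) = 0 then (1 : ℝ) else 0) := by
    intro ω
    unfold chi noise
    rw [Finset.prod_singleton]
    by_cases h : ω a = 0
    · have h' : (ω a : ℕ) = 0 := by rw [h]; simp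
      simp only [h, h', decide_true, sgb, if_true]
      norm_num
    · have h' : ¬ (ω a : ℕ) = 0 := fun h'' => h (Fin.ext (by rw [h'']; simp))
      simp only [h, h', decide_false, sgb, if_false]
      norm_num
  rw [avg_congr h2, avg_sub, avg_const, avg_const_mul] at h1
  field_simp at h1 ⊢
  linarith

/-- Small sets, the constant table. -/
lemma avg_hat_one (hM : 2 ≤ M) (π : S → T) {A : Finset S} (hA : A.Nonempty)
    (hinj : Set.InjOn π A) :
    (avg fun n : S → Fin M => hat (fun _ : T → Bool => (1 : ℝ)) (odd2 π (lv n A)) ^ 2) ≤ 1 / M := by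
  obtain ⟨a, ha⟩ := hA
  rw [← avg_zero hM a]
  refine avg_mono fun n => ?_
  rw [hat_one]
  by_cases h : (n a : ℕ) = 0
  · rw [if_pos h]
    split_ifs <;> norm_num
  · rw [if_neg h, if_neg]
    · norm_num
    · intro he
      have h1 : π a ∈ odd2 π (lv n A) := by
        unfold odd2
        rw [Finset.mem_filter]
        refine ⟨Finset.mem_univ _, ?_⟩
        have h2 : ((lv n A).filter fun s => π s = π a) = {a} := by
          ext s
          rw [Finset.mem_filter, Finset.mem_singleton]
          constructor
          · rintro ⟨h3, h4⟩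
            unfold lv at h3
            rw [Finset.mem_filter] at h3
            exact hinj h3.1 ha h4
          · rintro rfl
            refine ⟨?_, rfl⟩
            unfold lv
            rw [Finset.mem_filter]
            exact ⟨ha, h⟩
        rw [h2, Finset.card_singleton]
        exact odd_one
      rw [he] at h1
      exact absurd h1 (Finset.notMem_empty _)

end noise

end Vale.Agent.P339.H283
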