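import Vale.Agent.P333.NP.Rep

/-!
P339: smooth products of a projection game. The left questions are `J`-tuples of left questions;
one of the `J` coordinates is projected. Two different labels of a left question are seldom
projected to the same label.
-/

namespace Vale.Agent.P339.H283

open Finset Vale.Agent.Lib.PCP Vale.Agent.P333.NP

/-- The game of the left questions with themselves. -/
def idG {r : ℕ} (G : PG ℕ ℕ (Fin r) (Fin r)) : PG ℕ ℕ (Fin r) (Fin r) :=
  G.map fun c => (c.1, c.1, fun x => x)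

/-- Tagged names of the right questions. -/
def tagG {r : ℕ} (t : ℕ) (G : PG ℕ ℕ (Fin r) (Fin r)) : PG ℕ ℕ (Fin r) (Fin r) :=
  G.map fun c => (c.1, 2 * c.2.1 + t, c.2.2)

/-- The smooth product. -/
def smG {r : ℕ} (G : PG ℕ ℕ (Fin r) (Fin r)) : (J : ℕ) → PG ℕ ℕ (Fin (r ^ J)) (Fin (r ^ J))
  | 0 => []
  | J + 1 => tagG 0 (prodG (smG G J) (idG G)) ++ tagG 1 (prodG (powG (idG G) J) G)

section

variable {r : ℕ} (G : PG ℕ ℕ (Fin r) (Fin r))

theorem idG_length : (idG G).length = G.length := by simp [idG]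

theorem tagG_length (t : ℕ) : (tagG t G).length = G.length := by simp [tagG]

theorem powG_length (k : ℕ) : (powG G k).length = G.length ^ k := by
  induction k with
  | zero => rfl
  | succ k ih =>
    show (prodG (powG G k) G).length = _
    rw [prodG_length, ih, pow_succ]

theorem smG_length (J : ℕ) : (smG G J).length = J * G.length ^ J := by
  induction J with
  | zero => simp [smG]
  | succ J ih =>
    show (tagG 0 (prodG (smG G J) (idG G)) ++ tagG 1 (prodG (powG (idG G) J) G)).length = _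
    rw [List.length_append, tagG_length, tagG_length, prodG_length, prodG_length, powG_length, ih,
      idG_length, pow_succ]
    ring

theorem smG_ne {J : ℕ} (hJ : 0 < J) (hG : G ≠ []) : smG G J ≠ [] := by
  intro h
  have h1 := smG_length G J
  rw [h, List.length_nil] at h1
  have h2 : 0 < G.length := List.length_pos_iff.2 hG
  have h3 : 0 < J * G.length ^ J := by positivity
  omega

/-! ### Soundness -/

variable {G}

theorem tagG_sound {η : ℝ} (t : ℕ) (h : G.Sound η) : (tagG t G).Sound η := by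
  intro a b
  have h1 := h a fun v => b (2 * v + t)
  rw [tagG_length]
  rw [sat_eq] at h1 ⊢
  unfold tagG
  rw [ls_map]
  exact h1

theorem append_sound {η : ℝ} {H : PG ℕ ℕ (Fin r) (Fin r)} (h : G.Sound η) (h' : H.Sound η) :
    (G ++ H : PG ℕ ℕ (Fin r) (Fin r)).Sound η := by
  intro a b
  have h1 := h a b
  have h2 := h' a b
  rw [sat_eq] at h1 h2 ⊢
  rw [ls_append, List.length_append]
  push_cast
  linarith

variable {q : ℕ} {H : PG ℕ ℕ (Fin q) (Fin q)}

theorem prodG_sound_left {η : ℝ} (h : G.Sound η) : (prodG G H).Sound η := by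
  intro a b
  rw [sat_eq, ls_prodG, prodG_length, ls_comm]
  have h1 : ∀ d ∈ H, (ls G fun c => if (fun x => finProdFinEquiv
      (c.2.2 (finProdFinEquiv.symm x).1, d.2.2 (finProdFinEquiv.symm x).2))
        (a (Nat.pair c.1 d.1)) = b (Nat.pair c.2.1 d.2.1) then (1 : ℝ) else 0) ≤
      η * G.length := by
    intro d _
    refine le_trans ?_ (h (fun u => (finProdFinEquiv.symm (a (Nat.pair u d.1))).1)
      (fun v => (finProdFinEquiv.symm (b (Nat.pair v d.2.1))).1))
    rw [sat_eq]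
    refine ls_mono fun c _ => ?_
    by_cases hc : (finProdFinEquiv (c.2.2 (finProdFinEquiv.symm (a (Nat.pair c.1 d.1))).1,
        d.2.2 (finProdFinEquiv.symm (a (Nat.pair c.1 d.1))).2)) = b (Nat.pair c.2.1 d.2.1)
    · rw [if_pos hc, if_pos]
      rw [← hc, Equiv.symm_apply_apply]
    · rw [if_neg hc]
      split_ifs <;> norm_num
  refine (ls_mono h1).trans (le_of_eq ?_)
  rw [ls_const]
  push_cast
  ring

theorem prodG_sound_right {η : ℝ} (h : H.Sound η) : (prodG G H).Sound η := by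
  intro a b
  rw [sat_eq, ls_prodG, prodG_length]
  have h1 : ∀ c ∈ G, (ls H fun d => if (fun x => finProdFinEquiv
      (c.2.2 (finProdFinEquiv.symm x).1, d.2.2 (finProdFinEquiv.symm x).2))
        (a (Nat.pair c.1 d.1)) = b (Nat.pair c.2.1 d.2.1) then (1 : ℝ) else 0) ≤
      η * H.length := by
    intro c _
    refine le_trans ?_ (h (fun u => (finProdFinEquiv.symm (a (Nat.pair c.1 u))).2)
      (fun v => (finProdFinEquiv.symm (b (Nat.pair c.2.1 v))).2))
    rw [sat_eq]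
    refine ls_mono fun d _ => ?_
    by_cases hc : (finProdFinEquiv (c.2.2 (finProdFinEquiv.symm (a (Nat.pair c.1 d.1))).1,
        d.2.2 (finProdFinEquiv.symm (a (Nat.pair c.1 d.1))).2)) = b (Nat.pair c.2.1 d.2.1)
    · rw [if_pos hc, if_pos]
      rw [← hc, Equiv.symm_apply_apply]
    · rw [if_neg hc]
      split_ifs <;> norm_num
  refine (ls_mono h1).trans (le_of_eq ?_)
  rw [ls_const]
  push_cast
  ring

theorem nil_sound {η : ℝ} : PG.Sound ([] : PG ℕ ℕ (Fin r) (Fin r)) η := by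
  intro a b
  simp [PG.sat]

/-- The smooth product is as sound as the game. -/
theorem smG_sound {η : ℝ} (h : G.Sound η) (J : ℕ) : (smG G J).Sound η := by
  induction J with
  | zero => exact nil_sound
  | succ J ih =>
    exact append_sound (tagG_sound 0 (prodG_sound_left ih)) (tagG_sound 1 (prodG_sound_right h))

/-! ### Completeness -/

/-- The labelling of the tuples. -/
def aP (a : ℕ → Fin r) : (J : ℕ) → ℕ → Fin (r ^ J)
  | 0 => fun _ => ⟨0, by simp⟩
  | J + 1 => fun n => finProdFinEquiv (aP a J n.unpair.1, a n.unpair.2)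

theorem mem_prodG {m r : ℕ} {K : PG ℕ ℕ (Fin m) (Fin m)} {L : PG ℕ ℕ (Fin r) (Fin r)}
    {c : ℕ × ℕ × (Fin (m * r) → Fin (m * r))} (hc : c ∈ prodG K L) :
    ∃ d ∈ K, ∃ e ∈ L, c = (Nat.pair d.1 e.1, Nat.pair d.2.1 e.2.1, fun x => finProdFinEquiv
      (d.2.2 (finProdFinEquiv.symm x).1, e.2.2 (finProdFinEquiv.symm x).2)) := by
  unfold prodG at hc
  rw [List.mem_flatMap] at hc
  obtain ⟨d, hd, hc⟩ := hc
  rw [List.mem_map] at hc
  obtain ⟨e, he, rfl⟩ := hc
  exact ⟨d, hd, e, he, rfl⟩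

/-- All constraints are copies. -/
def AllId {m : ℕ} (K : PG ℕ ℕ (Fin m) (Fin m)) : Prop := ∀ c ∈ K, c.2.1 = c.1 ∧ c.2.2 = fun x => x

theorem allId_idG : AllId (idG G) := by
  intro c hc
  unfold idG at hc
  rw [List.mem_map] at hc
  obtain ⟨d, _, rfl⟩ := hc
  exact ⟨rfl, rfl⟩

theorem allId_prodG {m r : ℕ} {K : PG ℕ ℕ (Fin m) (Fin m)} {L : PG ℕ ℕ (Fin r) (Fin r)}
    (hK : AllId K) (hL : AllId L) : AllId (prodG K L) := by
  intro c hc
  obtain ⟨d, hd, e, he, rfl⟩ := mem_prodG hc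
  obtain ⟨h1, h2⟩ := hK d hd
  obtain ⟨h3, h4⟩ := hL e he
  refine ⟨by simp only [h1, h3], ?_⟩
  funext x
  simp only [h2, h4]
  show finProdFinEquiv ((finProdFinEquiv.symm x).1, (finProdFinEquiv.symm x).2) = x
  rw [Prod.mk.eta, Equiv.apply_symm_apply]

theorem allId_nil : AllId ([(0, 0, id)] : PG ℕ ℕ (Fin (r ^ 0)) (Fin (r ^ 0))) := by
  intro c hc
  rw [List.mem_singleton.1 hc]
  exact ⟨rfl, rfl⟩

theorem powG_idG (J : ℕ) : AllId (powG (idG G) J) := by
  induction J with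
  | zero => exact allId_nil
  | succ J ih => exact allId_prodG ih allId_idG

/-- One step of the smooth product. -/
def stp {m r : ℕ} (K P : PG ℕ ℕ (Fin m) (Fin m)) (G : PG ℕ ℕ (Fin r) (Fin r)) :
    PG ℕ ℕ (Fin (m * r)) (Fin (m * r)) :=
  tagG 0 (prodG K (idG G)) ++ tagG 1 (prodG P G)

theorem stp_perfect {m r : ℕ} {K P : PG ℕ ℕ (Fin m) (Fin m)} {G : PG ℕ ℕ (Fin r) (Fin r)}
    (hP : AllId P) {a b : ℕ → Fin r} (hab : ∀ c ∈ G, c.2.2 (a c.1) = b c.2.1) {a' b' : ℕ → Fin m}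
    (hab' : ∀ c ∈ K, c.2.2 (a' c.1) = b' c.2.1) :
    ∃ b'' : ℕ → Fin (m * r), ∀ c ∈ stp K P G,
      c.2.2 (finProdFinEquiv (a' c.1.unpair.1, a c.1.unpair.2)) = b'' c.2.1 := by
  refine ⟨fun n => if n % 2 = 0 then
    finProdFinEquiv (b' (n / 2).unpair.1, a (n / 2).unpair.2) else
    finProdFinEquiv (a' (n / 2).unpair.1, b (n / 2).unpair.2), fun c hc => ?_⟩
  unfold stp at hc
  rw [List.mem_append] at hc
  rcases hc with hc' | hc'
  · unfold tagG at hc'
    rw [List.mem_map] at hc'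
    obtain ⟨d, hd, rfl⟩ := hc'
    obtain ⟨d1, hd1, d2, hd2, rfl⟩ := mem_prodG hd
    obtain ⟨h3, h4⟩ := allId_idG d2 hd2
    have e1 : (2 * Nat.pair d1.2.1 d2.2.1 + 0) % 2 = 0 := by omega
    have e2 : (2 * Nat.pair d1.2.1 d2.2.1 + 0) / 2 = Nat.pair d1.2.1 d2.2.1 := by omega
    simp only [e1, e2, if_true, Nat.unpair_pair, Equiv.symm_apply_apply, hab' d1 hd1, h4]
    rw [h3]
  · unfold tagG at hc'
    rw [List.mem_map] at hc'
    obtain ⟨d, hd, rfl⟩ := hc'
    obtain ⟨d1, hd1, d2, hd2, rfl⟩ := mem_prodG hd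
    obtain ⟨h3, h4⟩ := hP d1 hd1
    have e1 : ¬ (2 * Nat.pair d1.2.1 d2.2.1 + 1) % 2 = 0 := by omega
    have e2 : (2 * Nat.pair d1.2.1 d2.2.1 + 1) / 2 = Nat.pair d1.2.1 d2.2.1 := by omega
    simp only [if_neg e1, e2, Nat.unpair_pair, Equiv.symm_apply_apply, hab d2 hd2, h4]
    rw [h3]

theorem smG_perfect {a b : ℕ → Fin r} (hab : ∀ c ∈ G, c.2.2 (a c.1) = b c.2.1) (J : ℕ) :
    ∃ b' : ℕ → Fin (r ^ J), ∀ c ∈ smG G J, c.2.2 (aP a J c.1) = b' c.2.1 := by
  induction J with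
  | zero => exact ⟨fun _ => ⟨0, by simp⟩, fun c hc => absurd hc List.not_mem_nil⟩
  | succ J ih =>
    obtain ⟨b', hb'⟩ := ih
    exact stp_perfect (powG_idG J) hab hb'

/-! ### Smoothness -/

theorem ls_tagG {r : ℕ} (t : ℕ) (G : PG ℕ ℕ (Fin r) (Fin r)) (φ : ℕ × ℕ × (Fin r → Fin r) → ℝ) :
    ls (tagG t G) φ = ls G fun c => φ (c.1, 2 * c.2.1 + t, c.2.2) := by
  unfold tagG
  rw [ls_map]

theorem ls_idG {r : ℕ} (G : PG ℕ ℕ (Fin r) (Fin r)) (φ : ℕ × ℕ × (Fin r → Fin r) → ℝ) :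
    ls (idG G) φ = ls G fun c => φ (c.1, c.1, fun x => x) := by
  unfold idG
  rw [ls_map]

theorem ls_stp {m r : ℕ} (K P : PG ℕ ℕ (Fin m) (Fin m)) (G : PG ℕ ℕ (Fin r) (Fin r))
    (φ : ℕ × ℕ × (Fin (m * r) → Fin (m * r)) → ℝ) :
    ls (stp K P G) φ = ls (tagG 0 (prodG K (idG G))) φ + ls (tagG 1 (prodG P G)) φ := by
  unfold stp
  rw [ls_append]

theorem stp_left {m r : ℕ} {K P : PG ℕ ℕ (Fin m) (Fin m)} {G : PG ℕ ℕ (Fin r) (Fin r)} {j : ℝ}
    (hK : ∀ w : ℕ → ℝ, (ls K fun c => w c.1) = j * ls P fun c => w c.1) (w : ℕ → ℝ) :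
    (ls (stp K P G) fun c => w c.1) = (j + 1) * ls (prodG P (idG G)) fun c => w c.1 := by
  rw [ls_stp, ls_tagG, ls_tagG, ls_prodG, ls_prodG, ls_prodG]
  have e2 := hK fun u => ls G fun d => w (Nat.pair u d.1)
  simp only [ls_idG]
  rw [e2]
  ring

theorem stp_coll {m r : ℕ} {K P : PG ℕ ℕ (Fin m) (Fin m)} {G : PG ℕ ℕ (Fin r) (Fin r)}
    (hP : AllId P)
    (hK : ∀ w : ℕ → ℝ, (∀ u, 0 ≤ w u) → ∀ s s' : Fin m, s ≠ s' →
      (ls K fun c => if c.2.2 s = c.2.2 s' then w c.1 else 0) ≤ ls P fun c => w c.1)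
    (w : ℕ → ℝ) (hw : ∀ u, 0 ≤ w u) (s s' : Fin (m * r)) (hs : s ≠ s') :
    (ls (stp K P G) fun c => if c.2.2 s = c.2.2 s' then w c.1 else 0) ≤
      ls (prodG P (idG G)) fun c => w c.1 := by
  rw [ls_stp, ls_tagG, ls_tagG, ls_prodG, ls_prodG, ls_prodG]
  set x : Fin m × Fin r := finProdFinEquiv.symm s with hx
  set x' : Fin m × Fin r := finProdFinEquiv.symm s' with hx'
  have hxx : x ≠ x' := fun h => hs (finProdFinEquiv.symm.injective h)
  have k1 : ∀ (c : ℕ × ℕ × (Fin m → Fin m)) (d : ℕ × ℕ × (Fin r → Fin r)),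
      (finProdFinEquiv (c.2.2 x.1, d.2.2 x.2) = finProdFinEquiv (c.2.2 x'.1, d.2.2 x'.2)) ↔
      (c.2.2 x.1 = c.2.2 x'.1 ∧ d.2.2 x.2 = d.2.2 x'.2) := by
    intro c d
    rw [finProdFinEquiv.injective.eq_iff, Prod.mk.injEq]
  simp only [← hx, ← hx', k1]
  by_cases h2 : x.2 = x'.2
  · have h1 : x.1 ≠ x'.1 := fun h => hxx (Prod.ext h h2)
    have z2 : (ls P fun c => ls G fun d =>
        if c.2.2 x.1 = c.2.2 x'.1 ∧ d.2.2 x.2 = d.2.2 x'.2 then
          w (Nat.pair c.1 d.1) else 0) = 0 := by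
      rw [ls_congr (ψ := fun _ => (0 : ℝ)), ls_zero]
      intro c hc
      rw [ls_congr (ψ := fun _ => (0 : ℝ)), ls_zero]
      intro d _
      rw [if_neg]
      intro h
      apply h1
      have := h.1
      rw [(hP c hc).2] at this
      exact this
    rw [z2, add_zero]
    simp only [ls_idG]
    rw [ls_comm, ls_comm P]
    refine ls_mono fun d _ => ?_
    refine le_trans (le_of_eq ?_) (hK (fun u => w (Nat.pair u d.1)) (fun u => hw _) x.1 x'.1 h1)
    refine ls_congr fun c _ => ?_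
    by_cases hcc : c.2.2 x.1 = c.2.2 x'.1
    · rw [if_pos hcc, if_pos ⟨hcc, h2⟩]
    · rw [if_neg hcc, if_neg fun h => hcc h.1]
  · have z1 : (ls K fun c => ls (idG G) fun d =>
        if c.2.2 x.1 = c.2.2 x'.1 ∧ d.2.2 x.2 = d.2.2 x'.2 then
          w (Nat.pair c.1 d.1) else 0) = 0 := by
      rw [ls_congr (ψ := fun _ => (0 : ℝ)), ls_zero]
      intro c _
      rw [ls_congr (ψ := fun _ => (0 : ℝ)), ls_zero]
      intro d hd
      rw [if_neg]
      intro h
      apply h2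
      have := h.2
      rw [(allId_idG d hd).2] at this
      exact this
    rw [z1, zero_add]
    simp only [ls_idG]
    refine ls_mono fun c _ => ls_mono fun d _ => ?_
    split_ifs
    · exact le_rfl
    · exact hw _

/-- The left questions are distributed as in the power. -/
theorem smG_left (J : ℕ) (w : ℕ → ℝ) :
    (ls (smG G J) fun c => w c.1) = J * ls (powG (idG G) J) fun c => w c.1 := by
  induction J generalizing w with
  | zero => simp [smG]
  | succ J ih =>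
    have := stp_left (G := G) (K := smG G J) (P := powG (idG G) J) ih w
    push_cast
    exact this

/-- For every left question, different labels collide under at most one of the `J` projections. -/
theorem smG_coll (J : ℕ) : ∀ w : ℕ → ℝ, (∀ u, 0 ≤ w u) → ∀ s s' : Fin (r ^ J), s ≠ s' →
    (ls (smG G J) fun c => if c.2.2 s = c.2.2 s' then w c.1 else 0) ≤
      ls (powG (idG G) J) fun c => w c.1 := by
  induction J with
  | zero =>
    intro w _ s s' hs
    exfalso
    apply hs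
    apply Fin.ext
    have h1 : (s : ℕ) < 1 := by simpa using s.2
    have h2 : (s' : ℕ) < 1 := by simpa using s'.2
    omega
  | succ J ih => exact stp_coll (powG_idG J) ih

/-- **Smoothness.** -/
theorem smG_smooth {J : ℕ} (hJ : 0 < J) (w : ℕ → ℝ) (hw : ∀ u, 0 ≤ w u) (s s' : Fin (r ^ J))
    (hs : s ≠ s') :
    (ls (smG G J) fun c => if c.2.2 s = c.2.2 s' then w c.1 else 0) ≤
      (1 / (J : ℝ)) * ls (smG G J) fun c => w c.1 := by
  have hJ' : (0 : ℝ) < J := by exact_mod_cast hJ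
  rw [smG_left, ← mul_assoc, one_div, inv_mul_cancel₀ hJ'.ne', one_mul]
  exact smG_coll J w hw s s' hs

end

end Vale.Agent.P339.H283
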