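import Vale.Agent.P339.H283.Sound

/-!
P339: acceptance probability of the test for Boolean tables.
-/

namespace Vale.Agent.P339.H283

open Finset Vale.Agent.Lib.PCP Vale.Agent.Lib.PCP.HA Vale.Agent.P333.NP

/-- The randomness of the test. -/
abbrev Idx (S T : Type) (M : ℕ) := (S → Fin M) × ((T → Bool) × (S → Bool))

section

variable {S T : Type}

/-- The test accepts: `H(z)_{F(x)} = K(y)`. -/
def acc {M : ℕ} (π : S → T) (F : (T → Bool) → Bool) (K : (S → Bool) → Bool)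
    (H : (S → Bool × Bool) → Bool × Bool) (p : Idx S T M) : Prop :=
  (if F p.2.1 then (H (zq π p.2.1 p.2.2 p.1)).2 else (H (zq π p.2.1 p.2.2 p.1)).1) = K p.2.2

instance {M : ℕ} (π : S → T) (F : (T → Bool) → Bool) (K : (S → Bool) → Bool)
    (H : (S → Bool × Bool) → Bool × Bool) (p : Idx S T M) : Decidable (acc π F K H p) := by
  unfold acc
  infer_instance

lemma acc_real {M : ℕ} (π : S → T) (F : (T → Bool) → Bool) (K : (S → Bool) → Bool)
    (H : (S → Bool × Bool) → Bool × Bool) (p : Idx S T M) :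
    (if acc π F K H p then (1 : ℝ) else 0) = 1 / 2 +
      ((1 / 4) * ((1 : ℝ) * sgb (K p.2.2) * sgb (H (zq π p.2.1 p.2.2 p.1)).1) +
      (1 / 4) * ((1 : ℝ) * sgb (K p.2.2) * sgb (H (zq π p.2.1 p.2.2 p.1)).2) +
      (1 / 4) * (sgb (F p.2.1) * sgb (K p.2.2) * sgb (H (zq π p.2.1 p.2.2 p.1)).1) -
      (1 / 4) * (sgb (F p.2.1) * sgb (K p.2.2) * sgb (H (zq π p.2.1 p.2.2 p.1)).2)) := by
  split_ifs with h
  · unfold acc at h
    revert h
    generalize H (zq π p.2.1 p.2.2 p.1) = z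
    obtain ⟨z0, z1⟩ := z
    cases F p.2.1 <;> cases K p.2.2 <;> cases z0 <;> cases z1 <;> simp [sgb] <;> norm_num
  · unfold acc at h
    revert h
    generalize H (zq π p.2.1 p.2.2 p.1) = z
    obtain ⟨z0, z1⟩ := z
    cases F p.2.1 <;> cases K p.2.2 <;> cases z0 <;> cases z1 <;> simp [sgb] <;> norm_num

end

variable {U V S T : Type} [DecidableEq U] [DecidableEq V] [Fintype S] [DecidableEq S] [Nonempty S]
  [Fintype T] [DecidableEq T] [Nonempty T]

lemma avg_acc {M : ℕ} [NeZero M] (π : S → T) (F : (T → Bool) → Bool) (K : (S → Bool) → Bool)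
    (H : (S → Bool × Bool) → Bool × Bool) :
    (avg fun p : Idx S T M => if acc π F K H p then (1 : ℝ) else 0) = 1 / 2 +
      ((1 / 4) * D M π (fun _ => (1 : ℝ)) (fun y => sgb (K y)) (fun z => sgb (H z).1) +
      (1 / 4) * D M π (fun _ => (1 : ℝ)) (fun y => sgb (K y)) (fun z => sgb (H z).2) +
      (1 / 4) * D M π (fun x => sgb (F x)) (fun y => sgb (K y)) (fun z => sgb (H z).1) -
      (1 / 4) * D M π (fun x => sgb (F x)) (fun y => sgb (K y)) (fun z => sgb (H z).2)) := by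
  rw [avg_congr (acc_real π F K H), avg_add, avg_const, avg_sub, avg_add, avg_add, avg_const_mul,
    avg_const_mul, avg_const_mul, avg_const_mul]
  rfl

/-- **Soundness of the test.** -/
theorem sum_acc_le {G : PG U V S T} {κ η : ℝ} (hκ : 0 ≤ κ) (hη : 0 ≤ η) (hsm : SmoothG G κ)
    (hG : G.Sound η) {M : ℕ} (hM : 2 ≤ M) (m : ℕ) {F : V → (T → Bool) → Bool}
    (hF : ∀ v x, F v (fun t => !x t) = !F v x) {K : U → (S → Bool) → Bool}
    (hK : ∀ u y, K u (fun t => !y t) = !K u y) (H : U → (S → Bool × Bool) → Bool × Bool) :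
    (ls G fun c => avg fun p : Idx S T M =>
      if acc c.2.2 (F c.2.1) (K c.1) (H c.1) p then (1 : ℝ) else 0) ≤
      G.length * (1 / 2 +
        Real.sqrt ((m : ℝ) ^ 2 * κ + (1 - 1 / (M : ℝ)) ^ m + m * η + 1 / M)) := by
  have : NeZero M := ⟨by omega⟩
  have hM1 : (1 : ℝ) ≤ M := by
    have : 1 ≤ M := by omega
    exact_mod_cast this
  have hodd : ∀ v x, sgb (F v fun t => !x t) = - sgb (F v x) := by
    intro v x
    rw [hF, sg_not]
  have hodd' : ∀ u y, sgb (K u fun t => !y t) = - sgb (K u y) := by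
    intro u y
    rw [hK, sg_not]
  have hb : ∀ b : Bool, |sgb b| ≤ 1 := fun b => (abs_sg b).le
  set E : ℝ := Real.sqrt ((m : ℝ) ^ 2 * κ + (1 - 1 / (M : ℝ)) ^ m + m * η + 1 / M) with hE
  have e1 : Real.sqrt ((m : ℝ) ^ 2 * κ + (1 - 1 / (M : ℝ)) ^ m + m * η) ≤ E := by
    refine Real.sqrt_le_sqrt ?_
    have : (0 : ℝ) ≤ 1 / M := by positivity
    linarith
  have e2 : Real.sqrt ((m : ℝ) ^ 2 * κ + (1 - 1 / (M : ℝ)) ^ m + 1 / M) ≤ E := by
    refine Real.sqrt_le_sqrt ?_
    have : (0 : ℝ) ≤ m * η := by positivity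
    linarith
  have hn : (0 : ℝ) ≤ G.length := Nat.cast_nonneg _
  have a1 := (sum_D_one (M := M) (h := fun u z => sgb (H u z).1) hκ hsm (g := fun u y => sgb (K u y))
    (fun _ _ => hb _) hodd' (fun _ _ => hb _) hM m).trans (mul_le_mul_of_nonneg_left e2 hn)
  have a2 := (sum_D_one (M := M) (h := fun u z => sgb (H u z).2) hκ hsm (g := fun u y => sgb (K u y))
    (fun _ _ => hb _) hodd' (fun _ _ => hb _) hM m).trans (mul_le_mul_of_nonneg_left e2 hn)
  have a3 := (sum_D_odd (M := M) (h := fun u z => sgb (H u z).1) hκ hsm hG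
    (f := fun v x => sgb (F v x)) (fun _ _ => hb _) hodd (g := fun u y => sgb (K u y))
    (fun _ _ => hb _) (fun _ _ => hb _) hM m).trans (mul_le_mul_of_nonneg_left e1 hn)
  have a4 := (sum_D_odd (M := M) (h := fun u z => sgb (H u z).2) hκ hsm hG
    (f := fun v x => sgb (F v x)) (fun _ _ => hb _) hodd (g := fun u y => sgb (K u y))
    (fun _ _ => hb _) (fun _ _ => hb _) hM m).trans (mul_le_mul_of_nonneg_left e1 hn)
  rw [abs_le] at a1 a2 a3 a4
  have h1 : (ls G fun c => avg fun p : Idx S T M =>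
      if acc c.2.2 (F c.2.1) (K c.1) (H c.1) p then (1 : ℝ) else 0) =
      G.length * (1 / 2) +
      ((1 / 4) * (ls G fun c => D M c.2.2 (fun _ => (1 : ℝ)) (fun y => sgb (K c.1 y))
        (fun z => sgb (H c.1 z).1)) +
      (1 / 4) * (ls G fun c => D M c.2.2 (fun _ => (1 : ℝ)) (fun y => sgb (K c.1 y))
        (fun z => sgb (H c.1 z).2)) +
      (1 / 4) * (ls G fun c => D M c.2.2 (fun x => sgb (F c.2.1 x)) (fun y => sgb (K c.1 y))
        (fun z => sgb (H c.1 z).1)) -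
      (1 / 4) * (ls G fun c => D M c.2.2 (fun x => sgb (F c.2.1 x)) (fun y => sgb (K c.1 y))
        (fun z => sgb (H c.1 z).2))) := by
    rw [← ls_const, ← ls_mul, ← ls_mul, ← ls_mul, ← ls_mul, sub_eq_add_neg, ← neg_one_mul,
      ← ls_mul, ← ls_add, ← ls_add, ← ls_add, ← ls_add]
    refine ls_congr fun c _ => ?_
    rw [avg_acc]
    ring
  rw [h1]
  nlinarith [a1.2, a2.2, a3.2, a4.1]

end Vale.Agent.P339.H283
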