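import Vale.Agent.P339.H283.Defs
import Vale.Agent.P339.H283.Test
import Vale.Agent.P339.H283.Smooth

/-!
P339: the gadget. Every run of the test is replaced by five 2-to-1 constraints with alphabets of
sizes 8 and 4.
-/

namespace Vale.Agent.P339.H283

open Finset Vale.Agent.Lib.PCP Vale.Agent.Lib.PCP.HA Vale.Agent.P333.NP

/-! ### Numbers of elements of finite types -/

/-- The number of an element. -/
noncomputable def cdT {X : Type} [Fintype X] (x : X) : ℕ := (Fintype.equivFin X x : ℕ)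

/-- The element with a given number. -/
noncomputable def dcT {X : Type} [Fintype X] [Inhabited X] (n : ℕ) : X :=
  if h : n < Fintype.card X then (Fintype.equivFin X).symm ⟨n, h⟩ else default

lemma dcT_cdT {X : Type} [Fintype X] [Inhabited X] (x : X) : dcT (cdT x) = x := by
  unfold dcT cdT
  rw [dif_pos (Fintype.equivFin X x).2]
  simp

/-! ### Labels -/

/-- Left labels. -/
noncomputable def e8 : Bool × Bool × Bool ≃ Fin (2 * 4) := Fintype.equivFinOfCardEq (by simp)

/-- Right labels. -/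
noncomputable def e4 : Bool × Bool ≃ Fin 4 := Fintype.equivFinOfCardEq (by simp)

/-- A projection. -/
noncomputable def mk (φ : Bool × Bool × Bool → Bool × Bool) : Fin (2 * 4) → Fin 4 := fun a =>
  e4 (φ (e8.symm a))

/-- Exactly 2-to-1 maps. -/
def Two (φ : Bool × Bool × Bool → Bool × Bool) : Prop :=
  ∀ b, (Finset.univ.filter fun a => φ a = b).card = 2

lemma mk_two {φ : Bool × Bool × Bool → Bool × Bool} (h : Two φ) (b : Fin 4) :
    (Finset.univ.filter fun a => mk φ a = b).card = 2 := by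
  refine (Finset.card_bij (fun a _ => e8.symm a) ?_ ?_ ?_).trans (h (e4.symm b))
  · intro a ha
    rw [Finset.mem_filter] at ha ⊢
    refine ⟨Finset.mem_univ _, ?_⟩
    rw [← ha.2]
    unfold mk
    rw [Equiv.symm_apply_apply]
  · intro a _ a' _ haa
    exact e8.symm.injective haa
  · intro t ht
    rw [Finset.mem_filter] at ht
    refine ⟨e8 t, ?_, Equiv.symm_apply_apply _ _⟩
    rw [Finset.mem_filter]
    refine ⟨Finset.mem_univ _, ?_⟩
    unfold mk
    rw [Equiv.symm_apply_apply, ht.2, Equiv.apply_symm_apply]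

/-- The projection to the vertex of the first query. -/
def phi1 (s : Bool) : Bool × Bool × Bool → Bool × Bool := fun a => (xor a.1 s, a.2.2)
/-- The projection to the vertex of the second query. -/
def phi2 (s : Bool) : Bool × Bool × Bool → Bool × Bool := fun a => (xor a.2.1 s, a.2.2)
/-- The projection to the auxiliary right vertex, from the first auxiliary left vertex. -/
def phi3 : Bool × Bool × Bool → Bool × Bool := fun a => (a.1, a.2.1)
/-- The projection to the auxiliary right vertex, from the second auxiliary left vertex. -/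
def phi4 : Bool × Bool × Bool → Bool × Bool := fun a => (a.1, if a.1 then a.2.2 else a.2.1)
/-- The projection to the vertex of the third query. -/
def phi5 : Bool × Bool × Bool → Bool × Bool := fun a => a.2

lemma two1 (s : Bool) : Two (phi1 s) := by unfold Two phi1; revert s; decide
lemma two2 (s : Bool) : Two (phi2 s) := by unfold Two phi2; revert s; decide
lemma two3 : Two phi3 := by unfold Two phi3; decide
lemma two4 : Two phi4 := by unfold Two phi4; decide
lemma two5 : Two phi5 := by unfold Two phi5; decide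

/-! ### The game -/

section

variable {R : ℕ} [NeZero R] {M : ℕ}

/-- Representative modulo complements. -/
def fl (f : Fin R → Bool) : Fin R → Bool := fun i => xor (f i) (f 0)

/-- Vertices of the first query. -/
noncomputable def xv (v : ℕ) (x : Fin R → Bool) : ℕ := 4 * Nat.pair v (cdT (fl x))
/-- Vertices of the second query. -/
noncomputable def yv (u : ℕ) (y : Fin R → Bool) : ℕ := 4 * Nat.pair u (cdT (fl y)) + 1
/-- Number of a run of the test. -/
noncomputable def view (c : ℕ × ℕ × (Fin R → Fin R)) (p : Idx (Fin R) (Fin R) M) : ℕ :=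
  Nat.pair (Nat.pair c.1 c.2.1) (cdT (c.2.2, p))
/-- Auxiliary right vertices. -/
noncomputable def bv (c : ℕ × ℕ × (Fin R → Fin R)) (p : Idx (Fin R) (Fin R) M) : ℕ :=
  4 * view c p + 2
/-- Vertices of the third query. -/
noncomputable def zv (u : ℕ) (z : Fin R → Bool × Bool) : ℕ := 4 * Nat.pair u (cdT z) + 3

/-- The five constraints. -/
noncomputable def gad (c : ℕ × ℕ × (Fin R → Fin R)) (p : Idx (Fin R) (Fin R) M) :
    List (Constraint 4) :=
  [⟨2 * view c p, xv c.2.1 p.2.1, mk (phi1 (p.2.1 0)), 1⟩,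
    ⟨2 * view c p, yv c.1 p.2.2, mk (phi2 (p.2.2 0)), 1⟩,
    ⟨2 * view c p, bv c p, mk phi3, 1⟩,
    ⟨2 * view c p + 1, bv c p, mk phi4, 1⟩,
    ⟨2 * view c p + 1, zv c.1 (zq c.2.2 p.2.1 p.2.2 p.1), mk phi5, 1⟩]

/-- The constraints of the game. -/
noncomputable def gcons (M : ℕ) (G : PG ℕ ℕ (Fin R) (Fin R)) : List (Constraint 4) :=
  G.flatMap fun c => (Finset.univ : Finset (Idx (Fin R) (Fin R) M)).toList.flatMap fun p => gad c p

lemma gad_two (c : ℕ × ℕ × (Fin R → Fin R)) (p : Idx (Fin R) (Fin R) M) :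
    ∀ e ∈ gad c p, ∀ b : Fin 4, (Finset.univ.filter fun a => e.π a = b).card = 2 := by
  intro e he b
  unfold gad at he
  simp only [List.mem_cons, List.not_mem_nil, or_false] at he
  rcases he with rfl | rfl | rfl | rfl | rfl
  · exact mk_two (two1 _) b
  · exact mk_two (two2 _) b
  · exact mk_two two3 b
  · exact mk_two two4 b
  · exact mk_two two5 b

lemma gcons_two (G : PG ℕ ℕ (Fin R) (Fin R)) :
    ∀ e ∈ gcons M G, ∀ b : Fin 4, (Finset.univ.filter fun a => e.π a = b).card = 2 := by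
  intro e he
  unfold gcons at he
  rw [List.mem_flatMap] at he
  obtain ⟨c, _, he⟩ := he
  rw [List.mem_flatMap] at he
  obtain ⟨p, _, he⟩ := he
  exact gad_two c p e he

/-- Real weights. -/
lemma weight_real {q : ℕ} (l : List (Constraint q)) : (weight l : ℝ) = ls l fun e => (e.w : ℝ) := by
  unfold weight ls
  induction l with
  | nil => simp
  | cons e l ih => simp [ih]

lemma weight_filter_real {q : ℕ} (l : List (Constraint q)) (P : Constraint q → Prop)
    [DecidablePred P] : (weight (l.filter fun e => P e) : ℝ) =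
      ls l fun e => if P e then (e.w : ℝ) else 0 := by
  unfold weight ls
  induction l with
  | nil => simp
  | cons e l ih =>
    rw [List.filter_cons]
    by_cases h : P e
    · simp [h, ih]
    · simp [h, ih]

lemma ls_toList {X : Type} [Fintype X] (φ : X → ℝ) :
    ls (Finset.univ : Finset X).toList φ = ∑ x, φ x := Finset.sum_map_toList _ _

lemma ls_gcons (G : PG ℕ ℕ (Fin R) (Fin R)) (φ : Constraint 4 → ℝ) :
    ls (gcons M G) φ = ls G fun c => ∑ p : Idx (Fin R) (Fin R) M, ls (gad c p) φ := by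
  unfold gcons
  rw [ls_flatMap]
  refine ls_congr fun c _ => ?_
  rw [ls_flatMap, ls_toList]

lemma gcons_weight (G : PG ℕ ℕ (Fin R) (Fin R)) :
    (weight (gcons M G) : ℝ) = 5 * (Fintype.card (Idx (Fin R) (Fin R) M) * G.length) := by
  rw [weight_real, ls_gcons]
  have h1 : ∀ (c : ℕ × ℕ × (Fin R → Fin R)) (p : Idx (Fin R) (Fin R) M),
      (ls (gad c p) fun e => (e.w : ℝ)) = 5 := by
    intro c p
    unfold gad
    simp only [ls_cons, ls_nil]
    norm_num
  simp only [h1]
  rw [ls_const, Finset.sum_const, Finset.card_univ, nsmul_eq_mul]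
  ring

lemma gcons_pos [NeZero M] {G : PG ℕ ℕ (Fin R) (Fin R)} (hG : G ≠ []) : 0 < weight (gcons M G) := by
  have h1 := gcons_weight (M := M) G
  have h2 : (0 : ℝ) < G.length := by
    have := List.length_pos_iff.2 hG
    exact_mod_cast this
  have h3 : (0 : ℝ) < Fintype.card (Idx (Fin R) (Fin R) M) := by
    have : 0 < Fintype.card (Idx (Fin R) (Fin R) M) := Fintype.card_pos
    exact_mod_cast this
  have h4 : (0 : ℝ) < weight (gcons M G) := by
    rw [h1]
    positivity
  exact_mod_cast h4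

/-! ### Soundness -/

/-- The table of the first query. -/
noncomputable def tF (B : ℕ → Fin 4) (v : ℕ) (x : Fin R → Bool) : Bool :=
  xor (e4.symm (B (xv v x))).1 (x 0)

/-- The table of the second query. -/
noncomputable def tK (B : ℕ → Fin 4) (u : ℕ) (y : Fin R → Bool) : Bool :=
  xor (e4.symm (B (yv u y))).1 (y 0)

/-- The table of the third query. -/
noncomputable def tH (B : ℕ → Fin 4) (u : ℕ) (z : Fin R → Bool × Bool) : Bool × Bool :=
  e4.symm (B (zv u z))

lemma fl_not' (x : Fin R → Bool) : fl (fun t => !x t) = fl x := by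
  funext t
  unfold fl
  dsimp only
  cases x t <;> cases x 0 <;> rfl

lemma tF_not (B : ℕ → Fin 4) (v : ℕ) (x : Fin R → Bool) :
    tF B v (fun t => !x t) = !tF B v x := by
  unfold tF xv
  rw [fl_not']
  dsimp only
  cases (e4.symm (B (4 * Nat.pair v (cdT (fl x))))).1 <;> cases x 0 <;> rfl

lemma tK_not (B : ℕ → Fin 4) (v : ℕ) (x : Fin R → Bool) :
    tK B v (fun t => !x t) = !tK B v x := by
  unfold tK yv
  rw [fl_not']
  dsimp only
  cases (e4.symm (B (4 * Nat.pair v (cdT (fl x)) + 1))).1 <;> cases x 0 <;> rfl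

/-- A constraint is satisfied. -/
def satc {q : ℕ} (A : ℕ → Fin (2 * q)) (B : ℕ → Fin q) (e : Constraint q) : Prop :=
  e.π (A e.u) = B e.v

instance {q : ℕ} (A : ℕ → Fin (2 * q)) (B : ℕ → Fin q) : DecidablePred (satc A B) := fun e => by
  unfold satc
  infer_instance

lemma gad_le (A : ℕ → Fin (2 * 4)) (B : ℕ → Fin 4) (c : ℕ × ℕ × (Fin R → Fin R))
    (p : Idx (Fin R) (Fin R) M) :
    (ls (gad c p) fun e => if satc A B e then (e.w : ℝ) else 0) ≤
      4 + if acc c.2.2 (tF B c.2.1) (tK B c.1) (tH B c.1) p then (1 : ℝ) else 0 := by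
  have hle : ∀ (P : Prop) [Decidable P], (if P then ((1 : ℕ) : ℝ) else 0) ≤ 1 := by
    intro P _
    split_ifs <;> norm_num
  by_cases hacc : acc c.2.2 (tF B c.2.1) (tK B c.1) (tH B c.1) p
  · rw [if_pos hacc]
    unfold gad
    simp only [ls_cons, ls_nil]
    linarith [hle (satc A B ⟨2 * view c p, xv c.2.1 p.2.1, mk (phi1 (p.2.1 0)), 1⟩),
      hle (satc A B ⟨2 * view c p, yv c.1 p.2.2, mk (phi2 (p.2.2 0)), 1⟩),
      hle (satc A B ⟨2 * view c p, bv c p, mk phi3, 1⟩),
      hle (satc A B ⟨2 * view c p + 1, bv c p, mk phi4, 1⟩),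
      hle (satc A B ⟨2 * view c p + 1, zv c.1 (zq c.2.2 p.2.1 p.2.2 p.1), mk phi5, 1⟩)]
  · rw [if_neg hacc]
    unfold gad
    simp only [ls_cons, ls_nil]
    have hne : ¬ (satc A B ⟨2 * view c p, xv c.2.1 p.2.1, mk (phi1 (p.2.1 0)), 1⟩ ∧
        satc A B ⟨2 * view c p, yv c.1 p.2.2, mk (phi2 (p.2.2 0)), 1⟩ ∧
        satc A B ⟨2 * view c p, bv c p, mk phi3, 1⟩ ∧
        satc A B ⟨2 * view c p + 1, bv c p, mk phi4, 1⟩ ∧
        satc A B ⟨2 * view c p + 1, zv c.1 (zq c.2.2 p.2.1 p.2.2 p.1), mk phi5, 1⟩) := by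
      rintro ⟨h1, h2, h3, h4, h5⟩
      apply hacc
      unfold satc mk at h1 h2 h3 h4 h5
      dsimp only at h1 h2 h3 h4 h5
      unfold acc tF tK tH
      rw [← h1, ← h2, ← h5]
      simp only [Equiv.symm_apply_apply]
      rw [← h3] at h4
      have h6 := e4.injective h4
      generalize e8.symm (A (2 * view c p)) = a at h6 ⊢
      generalize e8.symm (A (2 * view c p + 1)) = b at h6 ⊢
      obtain ⟨a1, a2, a3⟩ := a
      obtain ⟨b1, b2, b3⟩ := b
      unfold phi3 phi4 at h6
      unfold phi1 phi2 phi5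
      generalize p.2.1 0 = s
      generalize p.2.2 0 = t
      revert h6
      cases a1 <;> cases a2 <;> cases b1 <;> cases b2 <;> cases b3 <;> cases s <;> cases t <;>
        simp
    have k1 := hle (satc A B ⟨2 * view c p, xv c.2.1 p.2.1, mk (phi1 (p.2.1 0)), 1⟩)
    have k2 := hle (satc A B ⟨2 * view c p, yv c.1 p.2.2, mk (phi2 (p.2.2 0)), 1⟩)
    have k3 := hle (satc A B ⟨2 * view c p, bv c p, mk phi3, 1⟩)
    have k4 := hle (satc A B ⟨2 * view c p + 1, bv c p, mk phi4, 1⟩)
    have k5 := hle (satc A B ⟨2 * view c p + 1, zv c.1 (zq c.2.2 p.2.1 p.2.2 p.1), mk phi5, 1⟩)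
    by_cases h1 : satc A B ⟨2 * view c p, xv c.2.1 p.2.1, mk (phi1 (p.2.1 0)), 1⟩
    · by_cases h2 : satc A B ⟨2 * view c p, yv c.1 p.2.2, mk (phi2 (p.2.2 0)), 1⟩
      · by_cases h3 : satc A B ⟨2 * view c p, bv c p, mk phi3, 1⟩
        · by_cases h4 : satc A B ⟨2 * view c p + 1, bv c p, mk phi4, 1⟩
          · have h5 : ¬ satc A B ⟨2 * view c p + 1, zv c.1 (zq c.2.2 p.2.1 p.2.2 p.1),
              mk phi5, 1⟩ := fun h5 => hne ⟨h1, h2, h3, h4, h5⟩
            rw [if_neg h5]
            linarith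
          · rw [if_neg h4]
            linarith
        · rw [if_neg h3]
          linarith
      · rw [if_neg h2]
        linarith
    · rw [if_neg h1]
      linarith

lemma sum_idx_eq_avg {X : Type} [Fintype X] [Nonempty X] (φ : X → ℝ) :
    ∑ x, φ x = Fintype.card X * avg φ := by
  unfold avg
  have : (Fintype.card X : ℝ) ≠ 0 := by exact_mod_cast Fintype.card_ne_zero
  field_simp

/-- **Soundness of the game.** -/
theorem gcons_sound [NeZero M] {G : PG ℕ ℕ (Fin R) (Fin R)} {δ : ℝ}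
    (hG : ∀ (F K : ℕ → (Fin R → Bool) → Bool) (H : ℕ → (Fin R → Bool × Bool) → Bool × Bool),
      (∀ v x, F v (fun t => !x t) = !F v x) → (∀ u y, K u (fun t => !y t) = !K u y) →
      (ls G fun c => avg fun p : Idx (Fin R) (Fin R) M =>
        if acc c.2.2 (F c.2.1) (K c.1) (H c.1) p then (1 : ℝ) else 0) ≤ G.length * (1 / 2 + δ))
    (A : ℕ → Fin (2 * 4)) (B : ℕ → Fin 4) :
    (weight ((gcons M G).filter fun e => e.π (A e.u) = B e.v) : ℝ) ≤
      (9 / 10 + δ / 5) * weight (gcons M G) := by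
  have h1 := weight_filter_real (gcons M G) (satc A B)
  have h2 : (weight ((gcons M G).filter fun e => e.π (A e.u) = B e.v) : ℝ) =
      weight ((gcons M G).filter fun e => satc A B e) := rfl
  rw [h2, h1, ls_gcons, gcons_weight]
  have h3 := hG (tF B) (tK B) (tH B) (tF_not B) (tK_not B)
  have h4 : (ls G fun c => ∑ p : Idx (Fin R) (Fin R) M, ls (gad c p) fun e =>
      if satc A B e then (e.w : ℝ) else 0) ≤
      ls G fun c => (Fintype.card (Idx (Fin R) (Fin R) M) : ℝ) * (4 +
        avg fun p : Idx (Fin R) (Fin R) M =>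
          if acc c.2.2 (tF B c.2.1) (tK B c.1) (tH B c.1) p then (1 : ℝ) else 0) := by
    refine ls_mono fun c _ => ?_
    refine (Finset.sum_le_sum fun p _ => gad_le A B c p).trans (le_of_eq ?_)
    rw [sum_idx_eq_avg, avg_add, avg_const]
  refine h4.trans ?_
  rw [ls_mul, ls_add, ls_const]
  have h5 : (0 : ℝ) ≤ Fintype.card (Idx (Fin R) (Fin R) M) := Nat.cast_nonneg _
  nlinarith [mul_le_mul_of_nonneg_left h3 h5]

/-! ### Completeness -/

instance [NeZero M] : Inhabited ((Fin R → Fin R) × Idx (Fin R) (Fin R) M) :=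
  ⟨(fun _ => 0, (fun _ => 0, (fun _ => false, fun _ => false)))⟩

/-- The labels of the right vertices. -/
noncomputable def hB (M : ℕ) [NeZero M] (a b : ℕ → Fin R) (n : ℕ) : Fin 4 :=
  if n % 4 = 0 then e4 ((dcT (n / 4).unpair.2 : Fin R → Bool) (b (n / 4).unpair.1), false)
  else if n % 4 = 1 then e4 ((dcT (n / 4).unpair.2 : Fin R → Bool) (a (n / 4).unpair.1), false)
  else if n % 4 = 2 then
    e4 ((dcT (n / 4).unpair.2 : (Fin R → Fin R) × Idx (Fin R) (Fin R) M).2.2.1
      (b (n / 4).unpair.1.unpair.2),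
      (dcT (n / 4).unpair.2 : (Fin R → Fin R) × Idx (Fin R) (Fin R) M).2.2.2
      (a (n / 4).unpair.1.unpair.1))
  else e4 ((dcT (n / 4).unpair.2 : Fin R → Bool × Bool) (a (n / 4).unpair.1))

/-- The labels of the left vertices. -/
noncomputable def hA (M : ℕ) [NeZero M] (a b : ℕ → Fin R) (n : ℕ) : Fin (2 * 4) :=
  let w : (Fin R → Fin R) × Idx (Fin R) (Fin R) M := dcT (n / 2).unpair.2
  let u := (n / 2).unpair.1.unpair.1
  let v := (n / 2).unpair.1.unpair.2
  if n % 2 = 0 then e8 (w.2.2.1 (b v), w.2.2.2 (a u), false)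
  else e8 (w.2.2.1 (b v), zq w.1 w.2.2.1 w.2.2.2 w.2.1 (a u))

lemma hB_x [NeZero M] (a b : ℕ → Fin R) (v : ℕ) (x : Fin R → Bool) :
    hB M a b (xv v x) = e4 (xor (x (b v)) (x 0), false) := by
  unfold hB xv
  have e1 : 4 * Nat.pair v (cdT (fl x)) % 4 = 0 := by omega
  have e2 : 4 * Nat.pair v (cdT (fl x)) / 4 = Nat.pair v (cdT (fl x)) := by omega
  rw [if_pos e1, e2, Nat.unpair_pair]
  dsimp only
  rw [dcT_cdT]
  rfl

lemma hB_y [NeZero M] (a b : ℕ → Fin R) (u : ℕ) (y : Fin R → Bool) :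
    hB M a b (yv u y) = e4 (xor (y (a u)) (y 0), false) := by
  unfold hB yv
  have e0 : ¬ (4 * Nat.pair u (cdT (fl y)) + 1) % 4 = 0 := by omega
  have e1 : (4 * Nat.pair u (cdT (fl y)) + 1) % 4 = 1 := by omega
  have e2 : (4 * Nat.pair u (cdT (fl y)) + 1) / 4 = Nat.pair u (cdT (fl y)) := by omega
  rw [if_neg e0, if_pos e1, e2, Nat.unpair_pair]
  dsimp only
  rw [dcT_cdT]
  rfl

lemma hB_b [NeZero M] (a b : ℕ → Fin R) (c : ℕ × ℕ × (Fin R → Fin R))
    (p : Idx (Fin R) (Fin R) M) :
    hB M a b (bv c p) = e4 (p.2.1 (b c.2.1), p.2.2 (a c.1)) := by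
  unfold hB bv
  have e0 : ¬ (4 * view c p + 2) % 4 = 0 := by omega
  have e1 : ¬ (4 * view c p + 2) % 4 = 1 := by omega
  have e2 : (4 * view c p + 2) % 4 = 2 := by omega
  have e3 : (4 * view c p + 2) / 4 = view c p := by omega
  rw [if_neg e0, if_neg e1, if_pos e2, e3]
  unfold view
  rw [Nat.unpair_pair]
  dsimp only
  rw [Nat.unpair_pair, dcT_cdT]

lemma hB_z [NeZero M] (a b : ℕ → Fin R) (u : ℕ) (z : Fin R → Bool × Bool) :
    hB M a b (zv u z) = e4 (z (a u)) := by
  unfold hB zv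
  have e0 : ¬ (4 * Nat.pair u (cdT z) + 3) % 4 = 0 := by omega
  have e1 : ¬ (4 * Nat.pair u (cdT z) + 3) % 4 = 1 := by omega
  have e2 : ¬ (4 * Nat.pair u (cdT z) + 3) % 4 = 2 := by omega
  have e3 : (4 * Nat.pair u (cdT z) + 3) / 4 = Nat.pair u (cdT z) := by omega
  rw [if_neg e0, if_neg e1, if_neg e2, e3, Nat.unpair_pair]
  dsimp only
  rw [dcT_cdT]

lemma hA_0 [NeZero M] (a b : ℕ → Fin R) (c : ℕ × ℕ × (Fin R → Fin R))
    (p : Idx (Fin R) (Fin R) M) :
    hA M a b (2 * view c p) = e8 (p.2.1 (b c.2.1), p.2.2 (a c.1), false) := by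
  unfold hA
  have e1 : 2 * view c p % 2 = 0 := by omega
  have e2 : 2 * view c p / 2 = view c p := by omega
  dsimp only
  rw [if_pos e1, e2]
  unfold view
  rw [Nat.unpair_pair]
  dsimp only
  rw [Nat.unpair_pair, dcT_cdT]

lemma hA_1 [NeZero M] (a b : ℕ → Fin R) (c : ℕ × ℕ × (Fin R → Fin R))
    (p : Idx (Fin R) (Fin R) M) :
    hA M a b (2 * view c p + 1) = e8 (p.2.1 (b c.2.1), zq c.2.2 p.2.1 p.2.2 p.1 (a c.1)) := by
  unfold hA
  have e1 : ¬ (2 * view c p + 1) % 2 = 0 := by omega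
  have e2 : (2 * view c p + 1) / 2 = view c p := by omega
  dsimp only
  rw [if_neg e1, e2]
  unfold view
  rw [Nat.unpair_pair]
  dsimp only
  rw [Nat.unpair_pair, dcT_cdT]

/-- **Completeness of the game.** -/
theorem gcons_complete [NeZero M] {G : PG ℕ ℕ (Fin R) (Fin R)} {a b : ℕ → Fin R}
    (hab : ∀ c ∈ G, c.2.2 (a c.1) = b c.2.1) :
    ∀ e ∈ gcons M G, e.π (hA M a b e.u) = hB M a b e.v := by
  intro e he
  unfold gcons at he
  rw [List.mem_flatMap] at he
  obtain ⟨c, hc, he⟩ := he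
  rw [List.mem_flatMap] at he
  obtain ⟨p, _, he⟩ := he
  have h := hab c hc
  unfold gad at he
  simp only [List.mem_cons, List.not_mem_nil, or_false] at he
  rcases he with rfl | rfl | rfl | rfl | rfl
  · dsimp only
    rw [hA_0, hB_x]
    unfold mk phi1
    rw [Equiv.symm_apply_apply]
  · dsimp only
    rw [hA_0, hB_y]
    unfold mk phi2
    rw [Equiv.symm_apply_apply]
  · dsimp only
    rw [hA_0, hB_b]
    unfold mk phi3
    rw [Equiv.symm_apply_apply]
  · dsimp only
    rw [hA_1, hB_b]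
    unfold mk phi4 zq
    rw [Equiv.symm_apply_apply, ← h]
    dsimp only
    congr 2
    cases p.2.1 (c.2.2 (a c.1)) <;> cases p.2.2 (a c.1) <;> simp
  · dsimp only
    rw [hA_1, hB_z]
    unfold mk phi5
    rw [Equiv.symm_apply_apply]

end

end Vale.Agent.P339.H283
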