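import Vale.Agent.P339.H283.PTsm
import Vale.Agent.P333.NP.Lab
import Vale.Agent.P333.NP.PTlc
import Vale.Agent.P333.NP.PCPGlue

/-!
P339: NP-hardness of `Gap_4(1, s)` for every `s > 9/10`.
-/

namespace Vale.Agent.P339.H283

open Finset Vale.Agent.Lib.PCP Vale.Agent.Lib.PCP.HA Vale.Agent.Lib.PolyTime Vale.Agent.P333.NP

/-! ### Values -/

theorem Game.prob_le_one {q : ℕ} (G : Game q) (A : ℕ → Fin (2 * q)) (B : ℕ → Fin q) :
    G.prob A B ≤ 1 := by
  unfold Game.prob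
  have h0 : (0 : ℝ) < weight G.cons := by exact_mod_cast G.weight_pos
  rw [div_le_one h0]
  have h1 : weight (G.cons.filter fun e => e.π (A e.u) = B e.v) ≤ weight G.cons := by
    unfold weight
    exact List.Sublist.sum_le_sum ((List.filter_sublist).map _) fun _ _ => Nat.zero_le _
  exact_mod_cast h1

theorem Game.value_le {q : ℕ} (G : Game q) (hq : 0 < q) {s : ℝ} (h : ∀ A B, G.prob A B ≤ s) :
    G.value ≤ s := by
  unfold Game.value
  refine csSup_le ?_ ?_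
  · exact ⟨_, fun _ => ⟨0, by omega⟩, fun _ => ⟨0, hq⟩, rfl⟩
  · rintro p ⟨A, B, rfl⟩
    exact h A B

theorem Game.one_le_value {q : ℕ} (G : Game q) {A : ℕ → Fin (2 * q)} {B : ℕ → Fin q}
    (h : ∀ e ∈ G.cons, e.π (A e.u) = B e.v) : 1 ≤ G.value := by
  unfold Game.value
  refine le_csSup ⟨1, ?_⟩ ⟨A, B, ?_⟩
  · rintro p ⟨A, B, rfl⟩
    exact G.prob_le_one A B
  · unfold Game.prob
    have h0 : (0 : ℝ) < weight G.cons := by exact_mod_cast G.weight_pos
    have h1 : (G.cons.filter fun e => e.π (A e.u) = B e.v) = G.cons := by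
      rw [List.filter_eq_self]
      intro e he
      exact decide_eq_true (h e he)
    rw [h1, div_self h0.ne']

/-! ### The parameters -/

/-- Choice of the parameters. -/
theorem exists_param {γ δ : ℝ} (hγ : 0 < γ) (hγ1 : γ ≤ 1) (hδ : 0 < δ) :
    ∃ k J M : ℕ, 0 < J ∧ 2 ≤ M ∧ ∀ (r : ℕ) [NeZero r] (G : PG ℕ ℕ (Fin r) (Fin r)), G ≠ [] →
      G.Sound (1 - γ) → ∀ (F K : ℕ → (Fin ((r ^ k) ^ J) → Bool) → Bool)
      (H : ℕ → (Fin ((r ^ k) ^ J) → Bool × Bool) → Bool × Bool),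
      (∀ v x, F v (fun t => !x t) = !F v x) → (∀ u y, K u (fun t => !y t) = !K u y) →
      (ls (smG (powG (triv G) k) J) fun c =>
        avg fun p : Idx (Fin ((r ^ k) ^ J)) (Fin ((r ^ k) ^ J)) M =>
        if acc c.2.2 (F c.2.1) (K c.1) (H c.1) p then (1 : ℝ) else 0) ≤
        (smG (powG (triv G) k) J).length * (1 / 2 + δ) := by
  set ε : ℝ := δ ^ 2 / 4 with hε
  have hε0 : 0 < ε := by positivity
  obtain ⟨M0, hM0⟩ := exists_nat_gt (1 / ε)
  set M := max M0 2 with hM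
  have hM2 : 2 ≤ M := le_max_right _ _
  have hMε : 1 / ε < M := hM0.trans_le (by exact_mod_cast le_max_left _ _)
  have hMpos : (0 : ℝ) < M := by
    have : 0 < M := by omega
    exact_mod_cast this
  have hM1 : 1 / (M : ℝ) ≤ ε := by
    rw [div_le_iff₀ hMpos]
    rw [div_lt_iff₀ hε0] at hMε
    linarith
  have hlt : 1 - 1 / (M : ℝ) < 1 := by
    have : 0 < 1 / (M : ℝ) := by positivity
    linarith
  obtain ⟨m, hm⟩ := exists_pow_lt_of_lt_one hε0 hlt
  obtain ⟨J0, hJ0⟩ := exists_nat_gt ((m : ℝ) ^ 2 / ε)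
  set J := J0 + 1 with hJ
  have hJpos : (0 : ℝ) < J := by
    have : 0 < J := by omega
    exact_mod_cast this
  have hJm : (m : ℝ) ^ 2 * (1 / (J : ℝ)) ≤ ε := by
    rw [mul_one_div, div_le_iff₀ hJpos]
    rw [div_lt_iff₀ hε0] at hJ0
    have h1 : (J0 : ℝ) ≤ J := by rw [hJ]; push_cast; linarith
    nlinarith
  obtain ⟨k, hk⟩ := exists_pow (γ := γ) (η := ε / (m + 1)) hγ hγ1 (by positivity)
  refine ⟨k, J, M, by omega, hM2, fun r _ G hne hG F K H hF hK => ?_⟩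
  have : Nonempty (Fin ((r ^ k) ^ J)) := ⟨0⟩
  have h1 := smG_sound (hk r G hne hG) J
  have h2 : SmoothG (smG (powG (triv G) k) J) (1 / (J : ℝ)) := fun w hw s s' hs =>
    smG_smooth (by omega) w hw s s' hs
  have h3 := sum_acc_le (κ := 1 / (J : ℝ)) (η := ε / (m + 1)) (by positivity) (by positivity) h2
    h1 hM2 m hF hK H
  refine h3.trans (mul_le_mul_of_nonneg_left ?_ (Nat.cast_nonneg _))
  have h4 : (m : ℝ) * (ε / (m + 1)) ≤ ε := by
    rw [mul_div_assoc', div_le_iff₀ (by positivity)]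
    nlinarith
  have h5 : Real.sqrt ((m : ℝ) ^ 2 * (1 / (J : ℝ)) + (1 - 1 / (M : ℝ)) ^ m +
      m * (ε / (m + 1)) + 1 / M) ≤ δ := by
    rw [show δ = Real.sqrt (δ ^ 2) by rw [Real.sqrt_sq hδ.le]]
    refine Real.sqrt_le_sqrt ?_
    have h6 : δ ^ 2 = 4 * ε := by rw [hε]; ring
    rw [h6]
    linarith
  linarith

/-! ### The main theorem -/

theorem sat_iff (φ : Formula) : φ.Satisfiable ↔ CNF3.Sat φ := by
  unfold Formula.Satisfiable CNF3.Sat Lit.eval
  refine exists_congr fun τ => forall₂_congr fun c _ => ?_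
  simp only [Bool.or_eq_true, beq_iff_eq, or_assoc]

/-- **NP-hardness of `Gap_4(1, s)` for every `s > 9/10`.** -/
theorem gapHard {s : ℝ} (hs : 9 / 10 < s) : GapHard 4 1 s := by
  obtain ⟨S, _, _, s0, s1, γ, P, hs01, hγ, hγ1, hPne, hPs, hPg, hP⟩ := pcp
  have hne : Nonempty (S × S) := ⟨(s0, s0)⟩
  set r := Fintype.card (S × S) with hr
  have hr0 : NeZero r := ⟨Fintype.card_ne_zero⟩
  let e : S × S ≃ Fin r := Fintype.equivFin (S × S)
  obtain ⟨k, J, M, hJ, hM, hpar⟩ := exists_param (γ := γ / 2) (δ := 5 * (s - 9 / 10))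
    (by positivity) (by linarith) (by linarith)
  have hMz : NeZero M := ⟨by omega⟩
  -- the projection game
  set Γ : Formula → PG ℕ ℕ (Fin ((r ^ k) ^ J)) (Fin ((r ^ k) ^ J)) := fun φ =>
    smG (powG (triv (lcN e s0 s1 (P φ))) k) J with hΓ
  have hlne : ∀ φ, lcN e s0 s1 (P φ) ≠ [] := fun φ => lcN_ne e (hPne φ)
  have hΓne : ∀ φ, Γ φ ≠ [] := fun φ => smG_ne _ hJ (powG_ne _ (triv_ne _ (hlne φ)) k)
  have hPT : PT ∅ Γ := PT_smG (PT_powG (PT_triv (PT_lc s0 s1 (conv e s0) hP)) k) J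
  -- the reduction
  let f : Formula → Game 4 := fun φ => ⟨gcons M (Γ φ), gcons_two _, gcons_pos (hΓne φ)⟩
  refine ⟨f, ?_, fun φ => ⟨fun hφ => ?_, fun hφ => ?_⟩⟩
  · obtain ⟨g, hg, hg'⟩ := PT_gcons (M := M) hPT
    refine exists_tm2_of_polyTimeFun _ _ _ g (polyTimeFun_iff.2 hg) fun φ => ?_
    rw [formulaW_eq, gameW_eq]
    exact hg' φ
  · obtain ⟨a, b, hab⟩ := powG_perfect _ (triv_perfect _ (lcN_perfect (s1 := s1) e
      (hPs _ ((sat_iff φ).1 hφ)))) k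
    have hall : ∀ c ∈ powG (triv (lcN e s0 s1 (P φ))) k, c.2.2 (a c.1) = b c.2.1 := by
      unfold PG.sat at hab
      rw [List.countP_eq_length] at hab
      intro c hc
      simpa using hab c hc
    obtain ⟨b', hb'⟩ := smG_perfect hall J
    exact Game.one_le_value (f φ) (gcons_complete (M := M) hb')
  · have h1 := hpar r (lcN e s0 s1 (P φ)) (hlne φ)
      (lcN_sound e hs01 (hPg _ fun h => hφ ((sat_iff φ).2 h)))
    refine Game.value_le (f φ) (by norm_num) fun A B => ?_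
    have h2 := gcons_sound (M := M) (G := Γ φ) h1 A B
    have h0 : (0 : ℝ) < weight (f φ).cons := by exact_mod_cast (f φ).weight_pos
    unfold Game.prob
    rw [div_le_iff₀ h0]
    refine h2.trans (le_of_eq ?_)
    ring

theorem sStar_le : sStar ≤ 9 / 10 := by
  refine le_of_forall_gt_imp_ge_of_dense fun s hs => ?_
  unfold sStar
  have hbdd : BddBelow {s : ℝ | 0 < s ∧ s < 1 ∧ ∃ q : ℕ, 2 ≤ q ∧ GapHard q 1 s} :=
    ⟨0, fun x hx => hx.1.le⟩
  by_cases h1 : s < 1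
  · exact csInf_le hbdd ⟨by linarith, h1, 4, by norm_num, gapHard hs⟩
  · refine (csInf_le hbdd (⟨?_, ?_, 4, by norm_num, gapHard ?_⟩ :
      (19 / 20 : ℝ) ∈ {s : ℝ | 0 < s ∧ s < 1 ∧ ∃ q : ℕ, 2 ≤ q ∧ GapHard q 1 s})).trans ?_ <;>
    linarith

end Vale.Agent.P339.H283
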