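import Vale.Agent.P339.H283.Gadget
import Vale.Agent.P333.NP.PTrep
import Vale.Agent.Lib.PCP.PT.Gadget
import Vale.Agent.Lib.PolyTime.TypedTM2

/-!
P339: the reduction is computable in polynomial time.
-/

namespace Vale.Agent.P339.H283

open Finset Vale.Agent.Lib.PCP Vale.Agent.Lib.PolyTime Vale.Agent.P333.NP

variable {A : Set Word} {α : Type*} [Enc α]

theorem PT_idG {r : ℕ} {G : α → PG ℕ ℕ (Fin r) (Fin r)} (hG : PT A G) :
    PT A (fun a => idG (G a)) := by
  unfold idG
  have hc : PT A (fun p : α × (ℕ × ℕ × (Fin r → Fin r)) => p.2) := PT.snd'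
  exact PT.map (f := fun (_ : α) (c : ℕ × ℕ × (Fin r → Fin r)) =>
    ((c.1, c.1, fun x => x) : ℕ × ℕ × (Fin r → Fin r))) hG (hc.fst.pair (hc.fst.pair (PT.const _)))

theorem PT_tagG {r : ℕ} (t : ℕ) {G : α → PG ℕ ℕ (Fin r) (Fin r)} (hG : PT A G) :
    PT A (fun a => tagG t (G a)) := by
  unfold tagG
  have hc : PT A (fun p : α × (ℕ × ℕ × (Fin r → Fin r)) => p.2) := PT.snd'
  exact PT.map (f := fun (_ : α) (c : ℕ × ℕ × (Fin r → Fin r)) =>
    ((c.1, 2 * c.2.1 + t, c.2.2) : ℕ × ℕ × (Fin r → Fin r))) hG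
    (hc.fst.pair ((((PT.const 2).mul hc.snd.fst).add (PT.const t)).pair hc.snd.snd))

theorem PT_stp {m r : ℕ} {K P : α → PG ℕ ℕ (Fin m) (Fin m)} {G : α → PG ℕ ℕ (Fin r) (Fin r)}
    (hK : PT A K) (hP : PT A P) (hG : PT A G) : PT A (fun a => stp (K a) (P a) (G a)) := by
  unfold stp
  exact PT.append (PT_tagG 0 (PT_prodG hK (PT_idG hG))) (PT_tagG 1 (PT_prodG hP hG))

theorem PT_smG {r : ℕ} {G : α → PG ℕ ℕ (Fin r) (Fin r)} (hG : PT A G) (J : ℕ) :
    PT A (fun a => smG (G a) J) := by
  induction J with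
  | zero => exact PT.const (β := PG ℕ ℕ (Fin (r ^ 0)) (Fin (r ^ 0))) []
  | succ J ih => exact PT_stp ih (PT_powG (PT_idG hG) J) hG

/-- The data of a constraint. -/
def raw {q : ℕ} (e : Constraint q) : ℕ × ℕ × List ℕ × ℕ :=
  (e.u, e.v, List.ofFn (fun a => (e.π a : ℕ)), e.w)

theorem pairW_eq (u v : List Bool) : pairW u v = pr u v := by
  unfold pairW
  induction u with
  | nil => rfl
  | cons b u ih => rw [List.flatMap_cons, pr, ← ih]; rfl

theorem listW_eq {β : Type} [Enc β] (l : List β) : listW enc l = enc l := by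
  induction l with
  | nil => rfl
  | cons a l ih => rw [listW, ih, enc_cons, pairW_eq]

theorem formulaW_eq (φ : Formula) : formulaW φ = enc φ := by
  unfold formulaW
  have : (fun c : Literal × Literal × Literal =>
    pairW (litW c.1) (pairW (litW c.2.1) (litW c.2.2))) =
      (enc : Literal × Literal × Literal → Word) := by
    funext c
    unfold litW
    simp only [pairW_eq]
    rfl
  rw [this]
  exact listW_eq φ

theorem constraintW_eq {q : ℕ} (e : Constraint q) : constraintW e = enc (raw e) := by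
  unfold constraintW raw
  simp only [pairW_eq]
  have h : listW Nat.bits (List.ofFn fun a => (e.π a : ℕ)) =
      enc (List.ofFn fun a => (e.π a : ℕ)) := listW_eq _
  rw [h]
  rfl

theorem gameW_eq {q : ℕ} (G : Game q) : gameW G = enc (G.cons.map raw) := by
  unfold gameW
  generalize G.cons = l
  induction l with
  | nil => rfl
  | cons e l ih => rw [listW, ih, List.map_cons, enc_cons, pairW_eq, constraintW_eq]

section

variable {R : ℕ} [NeZero R] {M : ℕ}

theorem PT_natPair {f g : α → ℕ} (hf : PT A f) (hg : PT A g) :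
    PT A (fun a => Nat.pair (f a) (g a)) := PT_natPair_rep hf hg

theorem PT_view {c : α → ℕ × ℕ × (Fin R → Fin R)} (hc : PT A c) (p : Idx (Fin R) (Fin R) M) :
    PT A (fun a => view (c a) p) := by
  unfold view
  exact PT_natPair (PT_natPair hc.fst hc.snd.fst)
    (PT.finComp (fun π : Fin R → Fin R => cdT (π, p)) hc.snd.snd)

theorem PT_gad {c : α → ℕ × ℕ × (Fin R → Fin R)} (hc : PT A c) (p : Idx (Fin R) (Fin R) M) :
    PT A (fun a => (gad (c a) p).map raw) := by
  have hv := PT_view hc p
  have h0 : PT A (fun a => 2 * view (c a) p) := (PT.const 2).mul hv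
  have h1 : PT A (fun a => 2 * view (c a) p + 1) := h0.add (PT.const 1)
  have hx : PT A (fun a => xv (c a).2.1 p.2.1) := by
    unfold xv
    exact (PT.const 4).mul (PT_natPair hc.snd.fst (PT.const _))
  have hy : PT A (fun a => yv (c a).1 p.2.2) := by
    unfold yv
    exact ((PT.const 4).mul (PT_natPair hc.fst (PT.const _))).add (PT.const 1)
  have hb : PT A (fun a => bv (c a) p) := by
    unfold bv
    exact ((PT.const 4).mul hv).add (PT.const 2)
  have hz : PT A (fun a => zv (c a).1 (zq (c a).2.2 p.2.1 p.2.2 p.1)) := by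
    unfold zv
    exact ((PT.const 4).mul (PT_natPair hc.fst
      (PT.finComp (fun π : Fin R → Fin R => cdT (zq π p.2.1 p.2.2 p.1)) hc.snd.snd))).add
      (PT.const 3)
  unfold gad
  simp only [List.map_cons, List.map_nil, raw]
  exact PT.cons (h0.pair (hx.pair ((PT.const _).pair (PT.const _))))
    (PT.cons (h0.pair (hy.pair ((PT.const _).pair (PT.const _))))
    (PT.cons (h0.pair (hb.pair ((PT.const _).pair (PT.const _))))
    (PT.cons (h1.pair (hb.pair ((PT.const _).pair (PT.const _))))
    (PT.cons (h1.pair (hz.pair ((PT.const _).pair (PT.const _)))) PT.nil))))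

theorem PT_gcons {G : α → PG ℕ ℕ (Fin R) (Fin R)} (hG : PT A G) :
    PT A (fun a => (gcons M (G a)).map raw) := by
  have h1 : ∀ a, (gcons M (G a)).map raw = (G a).flatMap fun c =>
      (Finset.univ : Finset (Idx (Fin R) (Fin R) M)).toList.flatMap fun p =>
        (gad c p).map raw := by
    intro a
    unfold gcons
    simp only [List.map_flatMap]
  simp only [h1]
  exact PT.flatMap (f := fun (_ : α) (c : ℕ × ℕ × (Fin R → Fin R)) =>
    (Finset.univ : Finset (Idx (Fin R) (Fin R) M)).toList.flatMap fun p => (gad c p).map raw) hG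
    (PT.flatMapConst _ fun p _ => PT_gad PT.snd' p)

end

end Vale.Agent.P339.H283
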