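import Vale.Agent.P339.H283.Four

/-!
P339: soundness of the test over a smooth projection game of small value.
-/

namespace Vale.Agent.P339.H283

open Finset Vale.Agent.Lib.PCP Vale.Agent.Lib.PCP.HA Vale.Agent.P333.NP

section sub

variable {S : Type}

open Classical in
/-- All of `A`, or a subset of size `m` if `A` has at least `m` elements. -/
noncomputable def sub (m : ℕ) (A : Finset S) : Finset S :=
  if h : m ≤ A.card then (Finset.exists_subset_card_eq h).choose else A

lemma sub_subset (m : ℕ) (A : Finset S) : sub m A ⊆ A := by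
  unfold sub
  split_ifs with h
  · exact (Finset.exists_subset_card_eq h).choose_spec.1
  · exact Finset.Subset.refl _

lemma card_sub {m : ℕ} {A : Finset S} (h : m ≤ A.card) : (sub m A).card = m := by
  unfold sub
  rw [dif_pos h]
  exact (Finset.exists_subset_card_eq h).choose_spec.2

lemma sub_eq {m : ℕ} {A : Finset S} (h : A.card < m) : sub m A = A := by
  unfold sub
  rw [dif_neg (by omega)]

lemma card_sub_le (m : ℕ) (A : Finset S) : (sub m A).card ≤ m := by
  by_cases h : m ≤ A.card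
  · exact (card_sub h).le
  · rw [sub_eq (by omega)]
    omega

end sub

variable {U V S T : Type} [DecidableEq U] [DecidableEq V] [Fintype S] [DecidableEq S] [Nonempty S]
  [Fintype T] [DecidableEq T] [Nonempty T]

/-- Different labels of a left question are projected to the same label with probability at most
`κ`. -/
def SmoothG (G : PG U V S T) (κ : ℝ) : Prop :=
  ∀ w : U → ℝ, (∀ u, 0 ≤ w u) → ∀ s s' : S, s ≠ s' →
    (ls G fun c => if c.2.2 s = c.2.2 s' then w c.1 else 0) ≤ κ * ls G fun c => w c.1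

open Classical in
/-- Indicator of the failure of injectivity. -/
noncomputable def bad (π : S → T) (B : Finset S) : ℝ := if Set.InjOn π B then 0 else 1

omit [Fintype S] [Nonempty S] [Fintype T] [Nonempty T] in
lemma bad_le_sum (π : S → T) (B : Finset S) :
    bad π B ≤ ∑ s ∈ B, ∑ s' ∈ B, if s ≠ s' ∧ π s = π s' then (1 : ℝ) else 0 := by
  have h0 : ∀ s ∈ B, 0 ≤ ∑ s' ∈ B, if s ≠ s' ∧ π s = π s' then (1 : ℝ) else 0 := by
    intro s _
    refine Finset.sum_nonneg fun s' _ => ?_
    split_ifs <;> norm_num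
  unfold bad
  split_ifs with h
  · exact Finset.sum_nonneg h0
  · unfold Set.InjOn at h
    push Not at h
    obtain ⟨s, hs, s', hs', h1, h2⟩ := h
    refine le_trans ?_ (Finset.single_le_sum h0 hs)
    refine le_trans ?_ (Finset.single_le_sum (f := fun s' =>
      if s ≠ s' ∧ π s = π s' then (1 : ℝ) else 0) (fun s' _ => by split_ifs <;> norm_num) hs')
    rw [if_pos ⟨h2, h1⟩]

omit [DecidableEq U] [DecidableEq V] [Nonempty S] [Fintype T] [Nonempty T] in
/-- The total weight of the bad sets. -/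
lemma bad_total {G : PG U V S T} {κ : ℝ} (hκ : 0 ≤ κ) (hsm : SmoothG G κ)
    {g : U → (S → Bool) → ℝ} (hg : ∀ u y, |g u y| ≤ 1) (m : ℕ) :
    (ls G fun c => ∑ A : Finset S, hat (g c.1) A ^ 2 * bad c.2.2 (sub m A)) ≤
      (m : ℝ) ^ 2 * κ * G.length := by
  have h1 : (ls G fun c => ∑ A : Finset S, hat (g c.1) A ^ 2 * bad c.2.2 (sub m A)) ≤
      ls G fun c => ∑ A : Finset S, ∑ s ∈ sub m A, ∑ s' ∈ sub m A,
        if s ≠ s' ∧ c.2.2 s = c.2.2 s' then hat (g c.1) A ^ 2 else 0 := by
    refine ls_mono fun c _ => Finset.sum_le_sum fun A _ => ?_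
    refine (mul_le_mul_of_nonneg_left (bad_le_sum c.2.2 (sub m A)) (sq_nonneg _)).trans
      (le_of_eq ?_)
    rw [Finset.mul_sum]
    refine Finset.sum_congr rfl fun s _ => ?_
    rw [Finset.mul_sum]
    refine Finset.sum_congr rfl fun s' _ => ?_
    split_ifs <;> simp
  refine h1.trans ?_
  rw [ls_sum]
  have h2 : ∀ A : Finset S, (ls G fun c => ∑ s ∈ sub m A, ∑ s' ∈ sub m A,
        if s ≠ s' ∧ c.2.2 s = c.2.2 s' then hat (g c.1) A ^ 2 else 0) ≤
      (m : ℝ) ^ 2 * (κ * ls G fun c => hat (g c.1) A ^ 2) := by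
    intro A
    rw [ls_sum]
    have h3 : ∀ s ∈ sub m A, (ls G fun c => ∑ s' ∈ sub m A,
        if s ≠ s' ∧ c.2.2 s = c.2.2 s' then hat (g c.1) A ^ 2 else 0) ≤
        (m : ℝ) * (κ * ls G fun c => hat (g c.1) A ^ 2) := by
      intro s _
      rw [ls_sum]
      have h4 : ∀ s' ∈ sub m A, (ls G fun c =>
          if s ≠ s' ∧ c.2.2 s = c.2.2 s' then hat (g c.1) A ^ 2 else 0) ≤
          κ * ls G fun c => hat (g c.1) A ^ 2 := by
        intro s' _
        by_cases hs : s ≠ s'
        · have h5 := hsm (fun u => hat (g u) A ^ 2) (fun u => sq_nonneg _) s s' hs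
          refine le_trans (le_of_eq ?_) h5
          refine ls_congr fun c _ => ?_
          simp [hs]
        · have h6 : (ls G fun c =>
              if s ≠ s' ∧ c.2.2 s = c.2.2 s' then hat (g c.1) A ^ 2 else 0) = 0 := by
            refine (ls_congr (ψ := fun _ => (0 : ℝ)) fun c _ => ?_).trans (ls_zero G)
            rw [if_neg fun h => hs h.1]
          rw [h6]
          exact mul_nonneg hκ (ls_nonneg fun c _ => sq_nonneg _)
      refine (Finset.sum_le_sum h4).trans ?_
      rw [Finset.sum_const, nsmul_eq_mul]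
      refine mul_le_mul_of_nonneg_right ?_ (mul_nonneg hκ (ls_nonneg fun c _ => sq_nonneg _))
      exact_mod_cast card_sub_le m A
    refine (Finset.sum_le_sum h3).trans ?_
    rw [Finset.sum_const, nsmul_eq_mul, pow_two, mul_assoc]
    refine mul_le_mul_of_nonneg_right ?_ (mul_nonneg (Nat.cast_nonneg _)
      (mul_nonneg hκ (ls_nonneg fun c _ => sq_nonneg _)))
    exact_mod_cast card_sub_le m A
  refine (Finset.sum_le_sum fun A _ => h2 A).trans ?_
  rw [← Finset.mul_sum, ← Finset.mul_sum, ← ls_sum, ← mul_assoc]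
  refine mul_le_mul_of_nonneg_left ?_ (by positivity)
  refine (ls_mono (ψ := fun _ => (1 : ℝ)) fun c _ => ?_).trans (le_of_eq ?_)
  · exact sum_hat_sq_le (hg c.1)
  · rw [ls_const, mul_one]

omit [DecidableEq U] [DecidableEq V] [Nonempty S] [Nonempty T] in
/-- Splitting of the estimate. -/
lemma split_total {G : PG U V S T} {κ : ℝ} (hκ : 0 ≤ κ) (hsm : SmoothG G κ)
    {f : V → (T → Bool) → ℝ} (hf : ∀ v x, |f v x| ≤ 1)
    {g : U → (S → Bool) → ℝ} (hg : ∀ u y, |g u y| ≤ 1) {M : ℕ} (hM : 2 ≤ M) (m : ℕ)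
    (R : U × V × (S → T) → Finset S → ℝ) (hR0 : ∀ c A, 0 ≤ R c A)
    (hR : ∀ c ∈ G, ∀ A : Finset S, A.card < m → hat (g c.1) A ^ 2 *
      (avg fun n : S → Fin M => hat (f c.2.1) (odd2 c.2.2 (lv n A)) ^ 2) ≤
      hat (g c.1) A ^ 2 * bad c.2.2 (sub m A) + R c A) :
    (ls G fun c => ∑ A : Finset S, hat (g c.1) A ^ 2 *
      avg fun n : S → Fin M => hat (f c.2.1) (odd2 c.2.2 (lv n A)) ^ 2) ≤
      ((m : ℝ) ^ 2 * κ + (1 - 1 / (M : ℝ)) ^ m) * G.length +
        ls G fun c => ∑ A : Finset S, R c A := by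
  have hM1 : (1 : ℝ) ≤ M := by
    have : 1 ≤ M := by omega
    exact_mod_cast this
  have hpow : (0 : ℝ) ≤ (1 - 1 / (M : ℝ)) ^ m := by
    apply pow_nonneg
    rw [sub_nonneg, div_le_one (by linarith)]
    exact hM1
  have h1 : ∀ c ∈ G, (∑ A : Finset S, hat (g c.1) A ^ 2 *
      avg fun n : S → Fin M => hat (f c.2.1) (odd2 c.2.2 (lv n A)) ^ 2) ≤
      (∑ A : Finset S, hat (g c.1) A ^ 2 * bad c.2.2 (sub m A)) + (1 - 1 / (M : ℝ)) ^ m +
        ∑ A : Finset S, R c A := by
    intro c hc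
    have h2 : (∑ A : Finset S, hat (g c.1) A ^ 2 * (1 - 1 / (M : ℝ)) ^ m) ≤
        (1 - 1 / (M : ℝ)) ^ m := by
      rw [← Finset.sum_mul]
      exact mul_le_of_le_one_left hpow (sum_hat_sq_le (hg c.1))
    refine le_trans ?_ (add_le_add (add_le_add le_rfl h2) le_rfl)
    rw [← Finset.sum_add_distrib, ← Finset.sum_add_distrib]
    refine Finset.sum_le_sum fun A _ => ?_
    have hsq := sq_nonneg (hat (g c.1) A)
    by_cases hA : A.card < m
    · have := hR c hc A hA
      have h3 := mul_nonneg hsq hpow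
      linarith
    · push Not at hA
      have h3 := hR0 c A
      by_cases hinj : Set.InjOn c.2.2 (sub m A)
      · have h4 := avg_hat_large hM c.2.2 (hf c.2.1) (sub_subset m A) hinj
        rw [card_sub hA] at h4
        have h5 := mul_le_mul_of_nonneg_left h4 hsq
        have h6 : bad c.2.2 (sub m A) = 0 := by
          unfold bad
          rw [if_pos hinj]
        rw [h6]
        linarith
      · have h4 := avg_hat_le_one (M := M) c.2.2 (hf c.2.1) A
        have h5 := mul_le_mul_of_nonneg_left h4 hsq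
        have h6 : bad c.2.2 (sub m A) = 1 := by
          unfold bad
          rw [if_neg hinj]
        rw [h6]
        have h7 := mul_nonneg hsq hpow
        linarith
  refine (ls_mono h1).trans ?_
  rw [ls_add, ls_add, ls_const]
  have h2 := bad_total hκ hsm hg m
  nlinarith [h2]

omit [DecidableEq U] [DecidableEq V] [Nonempty S] [Nonempty T] in
/-- The sum of the squares controls the sum. -/
lemma abs_sum_D_le {G : PG U V S T} {M : ℕ} {f : V → (T → Bool) → ℝ} {g : U → (S → Bool) → ℝ}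
    {h : U → (S → Bool × Bool) → ℝ} (hh : ∀ u z, |h u z| ≤ 1) {K : ℝ}
    (hK : (ls G fun c => ∑ A : Finset S, hat (g c.1) A ^ 2 *
      avg fun n : S → Fin M => hat (f c.2.1) (odd2 c.2.2 (lv n A)) ^ 2) ≤ K * G.length) :
    |ls G fun c => D M c.2.2 (f c.2.1) (g c.1) (h c.1)| ≤ G.length * Real.sqrt K := by
  have h1 : (ls G fun c => D M c.2.2 (f c.2.1) (g c.1) (h c.1) ^ 2) ≤ K * G.length :=
    (ls_mono fun c _ => D_sq_le c.2.2 (f c.2.1) (g c.1) (hh c.1)).trans hK
  have h2 := ls_cs G (fun _ => (1 : ℝ)) (fun c => D M c.2.2 (f c.2.1) (g c.1) (h c.1))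
  simp only [one_mul, one_pow] at h2
  rw [ls_const, mul_one] at h2
  have h3 : (ls G fun c => D M c.2.2 (f c.2.1) (g c.1) (h c.1)) ^ 2 ≤
      (G.length : ℝ) ^ 2 * K := by
    refine h2.trans ((mul_le_mul_of_nonneg_left h1 (Nat.cast_nonneg _)).trans (le_of_eq ?_))
    ring
  have h4 := Real.abs_le_sqrt h3
  rwa [Real.sqrt_mul (by positivity), Real.sqrt_sq (Nat.cast_nonneg _)] at h4

/-- Odd tables on both sides. -/
theorem sum_D_odd {G : PG U V S T} {κ η : ℝ} (hκ : 0 ≤ κ) (hsm : SmoothG G κ) (hG : G.Sound η)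
    {f : V → (T → Bool) → ℝ} (hf : ∀ v x, |f v x| ≤ 1)
    (hodd : ∀ v x, f v (fun t => !x t) = - f v x)
    {g : U → (S → Bool) → ℝ} (hg : ∀ u y, |g u y| ≤ 1)
    {h : U → (S → Bool × Bool) → ℝ} (hh : ∀ u z, |h u z| ≤ 1) {M : ℕ} (hM : 2 ≤ M) (m : ℕ) :
    |ls G fun c => D M c.2.2 (f c.2.1) (g c.1) (h c.1)| ≤
      G.length * Real.sqrt ((m : ℝ) ^ 2 * κ + (1 - 1 / (M : ℝ)) ^ m + m * η) := by
  refine abs_sum_D_le hh ?_
  have h1 := split_total hκ hsm hf hg hM m
    (fun c A => (m : ℝ) * (hat (g c.1) A ^ 2 / (A.card : ℝ) * ∑ a ∈ A, dec (f c.2.1) (c.2.2 a)))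
    (fun c A => mul_nonneg (Nat.cast_nonneg _) (mul_nonneg (by positivity)
      (Finset.sum_nonneg fun a _ => dec_nonneg _ _)))
    (fun c _ A hA => by
      have h2 := avg_hat_small (M := M) c.2.2 (hat_empty (hodd c.2.1)) A
      have h3 : 0 ≤ hat (g c.1) A ^ 2 * bad c.2.2 (sub m A) := by
        refine mul_nonneg (sq_nonneg _) ?_
        unfold bad
        split_ifs <;> norm_num
      have h4 : hat (g c.1) A ^ 2 * (∑ a ∈ A, dec (f c.2.1) (c.2.2 a)) ≤
          (m : ℝ) * (hat (g c.1) A ^ 2 / (A.card : ℝ) * ∑ a ∈ A, dec (f c.2.1) (c.2.2 a)) := by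
        rcases Finset.eq_empty_or_nonempty A with he | he
        · subst he
          simp
        · have hpos : (0 : ℝ) < A.card := by exact_mod_cast he.card_pos
          have hle : (A.card : ℝ) ≤ m := by exact_mod_cast hA.le
          have h5 : 0 ≤ hat (g c.1) A ^ 2 / (A.card : ℝ) * ∑ a ∈ A, dec (f c.2.1) (c.2.2 a) :=
            mul_nonneg (by positivity) (Finset.sum_nonneg fun a _ => dec_nonneg _ _)
          have h6 := mul_le_mul_of_nonneg_right hle h5
          refine le_trans (le_of_eq ?_) h6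
          field_simp
      have h5 := mul_le_mul_of_nonneg_left h2 (sq_nonneg (hat (g c.1) A))
      linarith)
  refine h1.trans ?_
  have h2 : (ls G fun c => ∑ A : Finset S, (m : ℝ) * (hat (g c.1) A ^ 2 / (A.card : ℝ) *
      ∑ a ∈ A, dec (f c.2.1) (c.2.2 a))) ≤ m * (η * G.length) := by
    have h3 : (ls G fun c => ∑ A : Finset S, (m : ℝ) * (hat (g c.1) A ^ 2 / (A.card : ℝ) *
        ∑ a ∈ A, dec (f c.2.1) (c.2.2 a))) =
        m * ls G fun c => ∑ a, dec (g c.1) a * dec (f c.2.1) (c.2.2 a) := by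
      rw [← ls_mul]
      refine ls_congr fun c _ => ?_
      rw [← Finset.mul_sum]
      congr 1
      have h4 : ∀ a : S, dec (g c.1) a * dec (f c.2.1) (c.2.2 a)
          = ∑ A : Finset S, (if a ∈ A then hat (g c.1) A ^ 2 / (A.card : ℝ) *
            dec (f c.2.1) (c.2.2 a) else 0) := by
        intro a
        conv_lhs => rw [dec, Finset.sum_mul]
        refine Finset.sum_congr rfl fun A _ => ?_
        split_ifs <;> ring
      simp only [h4]
      rw [Finset.sum_comm]
      refine Finset.sum_congr rfl fun A _ => ?_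
      rw [Finset.sum_ite_mem, Finset.univ_inter, Finset.mul_sum]
    rw [h3]
    refine mul_le_mul_of_nonneg_left ?_ (Nat.cast_nonneg _)
    obtain ⟨a, b, hab⟩ := exists_labelling G (fun u => dec (g u)) (fun v => dec (f v))
      (fun u s => dec_nonneg _ _) (fun u => sum_dec_le (hg u)) (fun v t => dec_nonneg _ _)
      (fun v => sum_dec_le (hf v))
    exact hab.trans (hG a b)
  calc ((m : ℝ) ^ 2 * κ + (1 - 1 / (M : ℝ)) ^ m) * G.length +
        (ls G fun c => ∑ A : Finset S, (m : ℝ) * (hat (g c.1) A ^ 2 / (A.card : ℝ) *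
          ∑ a ∈ A, dec (f c.2.1) (c.2.2 a)))
      ≤ ((m : ℝ) ^ 2 * κ + (1 - 1 / (M : ℝ)) ^ m) * G.length + m * (η * G.length) :=
        add_le_add le_rfl h2
    _ = _ := by ring

omit [DecidableEq U] [DecidableEq V] [Nonempty S] [Nonempty T] in
/-- The constant table on the right side. -/
theorem sum_D_one {G : PG U V S T} {κ : ℝ} (hκ : 0 ≤ κ) (hsm : SmoothG G κ)
    {g : U → (S → Bool) → ℝ} (hg : ∀ u y, |g u y| ≤ 1)
    (hodd : ∀ u y, g u (fun t => !y t) = - g u y)
    {h : U → (S → Bool × Bool) → ℝ} (hh : ∀ u z, |h u z| ≤ 1) {M : ℕ} (hM : 2 ≤ M) (m : ℕ) :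
    |ls G fun c => D M c.2.2 (fun _ => (1 : ℝ)) (g c.1) (h c.1)| ≤
      G.length * Real.sqrt ((m : ℝ) ^ 2 * κ + (1 - 1 / (M : ℝ)) ^ m + 1 / M) := by
  refine abs_sum_D_le (f := fun _ _ => (1 : ℝ)) hh ?_
  have h1 := split_total (f := fun _ _ => (1 : ℝ)) hκ hsm (fun _ _ => by simp) hg hM m
    (fun c A => hat (g c.1) A ^ 2 * (1 / (M : ℝ)))
    (fun c A => by positivity)
    (fun c _ A hA => by
      rcases Finset.eq_empty_or_nonempty A with he | he
      · subst he
        rw [hat_empty (hodd c.1)]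
        simp
      · rw [sub_eq hA]
        have hsq := sq_nonneg (hat (g c.1) A)
        by_cases hinj : Set.InjOn c.2.2 A
        · have h2 := avg_hat_one hM c.2.2 he hinj
          have h3 := mul_le_mul_of_nonneg_left h2 hsq
          have h4 : bad c.2.2 A = 0 := by
            unfold bad
            rw [if_pos hinj]
          rw [h4]
          linarith
        · have h2 := avg_hat_le_one (M := M) (f := fun _ : T → Bool => (1 : ℝ)) c.2.2
            (fun _ => by simp) A
          have h3 := mul_le_mul_of_nonneg_left h2 hsq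
          have h4 : bad c.2.2 A = 1 := by
            unfold bad
            rw [if_neg hinj]
          rw [h4]
          have h5 : 0 ≤ hat (g c.1) A ^ 2 * (1 / (M : ℝ)) := by positivity
          linarith)
  refine h1.trans ?_
  have h2 : (ls G fun c => ∑ A : Finset S, hat (g c.1) A ^ 2 * (1 / (M : ℝ))) ≤
      (1 / (M : ℝ)) * G.length := by
    refine (ls_mono (ψ := fun _ => 1 / (M : ℝ)) fun c _ => ?_).trans (le_of_eq ?_)
    · rw [← Finset.sum_mul]
      exact mul_le_of_le_one_left (by positivity) (sum_hat_sq_le (hg c.1))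
    · rw [ls_const]
      ring
  calc ((m : ℝ) ^ 2 * κ + (1 - 1 / (M : ℝ)) ^ m) * G.length +
        (ls G fun c => ∑ A : Finset S, hat (g c.1) A ^ 2 * (1 / (M : ℝ)))
      ≤ ((m : ℝ) ^ 2 * κ + (1 - 1 / (M : ℝ)) ^ m) * G.length + (1 / (M : ℝ)) * G.length :=
        add_le_add le_rfl h2
    _ = _ := by ring

end Vale.Agent.P339.H283
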